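import Mathlib

/-!
Greedy cleaning of a word: if a pattern occurs rarely, few deletions kill it, even with repetition.
-/

open Finset

namespace Vale.Agent.P037

open scoped Classical in
theorem clean_aux {n : ℕ} {α : Type*} (w : Fin n → α) (m : ℕ) :
    ∀ (k : ℕ) (h : Fin k → α) (p : ℕ),
      (univ.filter (fun r : Fin k → Fin n =>
        StrictMono r ∧ (∀ i, p ≤ (r i : ℕ)) ∧ ∀ i, w (r i) = h i)).card < m ^ k →
      ∃ X : Finset (Fin n), X.card ≤ k * m ∧
        ∀ r : Fin k → Fin n, Monotone r → (∀ i, p ≤ (r i : ℕ)) → (∀ i, w (r i) = h i) →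
          ∃ i, r i ∈ X := by
  intro k
  induction k with
  | zero =>
    intro h p hlt
    exfalso
    rw [pow_zero, Nat.lt_one_iff, Finset.card_eq_zero] at hlt
    have : (Fin.elim0 : Fin 0 → Fin n) ∈ (∅ : Finset (Fin 0 → Fin n)) := by
      rw [← hlt, Finset.mem_filter]
      exact ⟨mem_univ _, fun a => a.elim0, fun a => a.elim0, fun a => a.elim0⟩
    simp at this
  | succ k ih =>
    intro h p hlt
    set S := univ.filter (fun x : Fin n => p ≤ (x : ℕ) ∧ w x = h 0) with hS
    by_cases hsm : S.card ≤ m
    · refine ⟨S, hsm.trans (Nat.le_mul_of_pos_left m (Nat.succ_pos k)), fun r _ hr hw => ⟨0, ?_⟩⟩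
      rw [hS, Finset.mem_filter]
      exact ⟨mem_univ _, hr 0, hw 0⟩
    · push Not at hsm
      let f := S.orderEmbOfFin rfl
      set T := S.filter (fun x => x < f ⟨m, hsm⟩) with hT
      have hTcard : T.card = m := by
        have e : T = (univ.filter (fun i : Fin S.card => (i : ℕ) < m)).image f := by
          ext x
          simp only [hT, Finset.mem_filter, Finset.mem_image, mem_univ, true_and]
          constructor
          · rintro ⟨hx, hlt'⟩
            have hx' : x ∈ Set.range f := by
              rw [Finset.range_orderEmbOfFin]; exact hx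
            obtain ⟨i, rfl⟩ := hx'
            exact ⟨i, by simpa [Fin.lt_def] using f.lt_iff_lt.1 hlt', rfl⟩
          · rintro ⟨i, hi, rfl⟩
            exact ⟨Finset.orderEmbOfFin_mem _ _ i, f.lt_iff_lt.2 (by simpa [Fin.lt_def] using hi)⟩
        rw [e, Finset.card_image_of_injective _ f.injective]
        have e2 : (univ.filter (fun i : Fin S.card => (i : ℕ) < m)) =
            (univ : Finset (Fin m)).image (Fin.castLE hsm.le) := by
          ext i
          simp only [Finset.mem_filter, mem_univ, true_and, Finset.mem_image]
          exact ⟨fun hi => ⟨⟨i, hi⟩, Fin.ext rfl⟩, fun ⟨j, hj⟩ => hj ▸ j.2⟩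
        rw [e2, Finset.card_image_of_injective _ (Fin.castLE_injective _), Finset.card_univ,
          Fintype.card_fin]
      set q := ((f ⟨m, hsm⟩ : Fin n) : ℕ) with hq
      set tails := univ.filter (fun r : Fin k → Fin n =>
        StrictMono r ∧ (∀ i, q ≤ (r i : ℕ)) ∧ ∀ i, w (r i) = Fin.tail h i) with htails
      have htail : tails.card < m ^ k := by
        by_contra hc
        push Not at hc
        have hinj : (T ×ˢ tails).card ≤ _ :=
          Finset.card_le_card_of_injOn (fun z => (Fin.cons z.1 z.2 : Fin (k + 1) → Fin n))
            (t := univ.filter (fun r : Fin (k + 1) → Fin n =>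
              StrictMono r ∧ (∀ i, p ≤ (r i : ℕ)) ∧ ∀ i, w (r i) = h i))
            (by
              intro z hz
              obtain ⟨hz1, hz2⟩ := Finset.mem_product.1 hz
              rw [hT, Finset.mem_filter] at hz1
              rw [htails, Finset.mem_filter] at hz2
              obtain ⟨hzS, hlt1⟩ := hz1
              obtain ⟨-, hp1, hw1⟩ := Finset.mem_filter.1 hzS
              obtain ⟨-, hm2, hq2, hw2⟩ := hz2
              have hlt1' : ((z.1 : Fin n) : ℕ) < q := hlt1
              simp only [Finset.coe_filter, Set.mem_setOf_eq, mem_univ, true_and]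
              refine ⟨?_, fun i => ?_, fun i => ?_⟩
              · intro a b hab
                induction b using Fin.cases with
                | zero => exact absurd hab (Fin.not_lt_zero _)
                | succ b =>
                  induction a using Fin.cases with
                  | zero =>
                    simp only [Fin.cons_zero, Fin.cons_succ, Fin.lt_def]
                    have := hq2 b
                    omega
                  | succ a => simpa using hm2 (Fin.succ_lt_succ_iff.1 hab)
              · refine Fin.cases ?_ (fun j => ?_) i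
                · simpa using hp1
                · simp only [Fin.cons_succ]; have := hq2 j; omega
              · refine Fin.cases ?_ (fun j => ?_) i
                · simpa using hw1
                · simpa [Fin.tail] using hw2 j)
            (fun a _ b _ hab => by
              obtain ⟨h1, h2⟩ := Fin.cons_inj.1 hab
              exact Prod.ext h1 h2)
        rw [Finset.card_product, hTcard] at hinj
        have := Nat.mul_le_mul_left m hc
        rw [pow_succ] at hlt
        nlinarith
      obtain ⟨X, hX, hXr⟩ := ih (Fin.tail h) q htail
      refine ⟨T ∪ X, (Finset.card_union_le _ _).trans (by rw [hTcard, Nat.succ_mul]; omega),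
        fun r hmono hr hw => ?_⟩
      by_cases h0 : r 0 < f ⟨m, hsm⟩
      · refine ⟨0, Finset.mem_union_left _ ?_⟩
        rw [hT, Finset.mem_filter]
        exact ⟨Finset.mem_filter.2 ⟨mem_univ _, hr 0, hw 0⟩, h0⟩
      · push Not at h0
        obtain ⟨i, hi⟩ := hXr (Fin.tail r) (fun a b hab => hmono (Fin.succ_le_succ_iff.2 hab))
          (fun i => le_trans (Fin.le_def.1 h0) (Fin.le_def.1 (hmono (Fin.zero_le _))))
          (fun i => hw i.succ)
        exact ⟨i.succ, Finset.mem_union_right _ hi⟩

open scoped Classical in
/-- A rare pattern is destroyed, also with repeated positions, by deleting `k * m` positions. -/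
theorem clean {n k : ℕ} {α : Type*} (w : Fin n → α) (h : Fin k → α) (m : ℕ)
    (hlt : (univ.filter (fun r : Fin k → Fin n => StrictMono r ∧ ∀ i, w (r i) = h i)).card < m ^ k) :
    ∃ X : Finset (Fin n), X.card ≤ k * m ∧
      ∀ r : Fin k → Fin n, Monotone r → (∀ i, w (r i) = h i) → ∃ i, r i ∈ X := by
  obtain ⟨X, hX, hXr⟩ := clean_aux w m k h 0 (by simpa using hlt)
  exact ⟨X, hX, fun r hm hw => hXr r hm (fun i => Nat.zero_le _) hw⟩

end Vale.Agent.P037
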