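import Mathlib

/-!
Ordered copies of a binary pattern in a binary matrix, and distance from pattern-freeness.
-/

open Finset

namespace Vale.Agent.P037

/-- `p = (rows, columns)` is an ordered copy of `H` in `A`. -/
def IsCopy {k n : ℕ} (H : Fin k → Fin k → Bool) (A : Fin n → Fin n → Bool)
    (p : (Fin k → Fin n) × (Fin k → Fin n)) : Prop :=
  StrictMono p.1 ∧ StrictMono p.2 ∧ ∀ i j, A (p.1 i) (p.2 j) = H i j

open scoped Classical in
/-- `N_H(A)`, the number of ordered copies. -/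
noncomputable def numCopies {k n : ℕ} (H : Fin k → Fin k → Bool) (A : Fin n → Fin n → Bool) : ℕ :=
  (univ.filter (IsCopy H A)).card

/-- `A` has no ordered copy of `H`. -/
def IsFree {k n : ℕ} (H : Fin k → Fin k → Bool) (A : Fin n → Fin n → Bool) : Prop :=
  ∀ p, ¬ IsCopy H A p

/-- The number of entries in which two matrices differ. -/
def entryDiff {n : ℕ} (A B : Fin n → Fin n → Bool) : ℕ :=
  (univ.filter (fun p : Fin n × Fin n => A p.1 p.2 ≠ B p.1 p.2)).card

/-- Every `H`-free matrix differs from `A` in at least `ε n^2` entries. -/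
def IsFarFromFree {k n : ℕ} (H : Fin k → Fin k → Bool) (A : Fin n → Fin n → Bool) (ε : ℝ) : Prop :=
  ∀ B, IsFree H B → ε * (n : ℝ) ^ 2 ≤ (entryDiff A B : ℝ)

/-- Removal for every pattern with a double exponential dependence on `1/ε`. -/
def DoubleExpRemoval : Prop :=
  ∀ k : ℕ, 1 ≤ k → ∀ H : Fin k → Fin k → Bool, ∃ C : ℝ, 0 < C ∧
    ∀ n : ℕ, 1 ≤ n → ∀ ε : ℝ, 0 < ε → ε < 1 → ∀ A : Fin n → Fin n → Bool,
      IsFarFromFree H A ε →
        Real.exp (-Real.exp (C * ε ^ (-C))) * (n : ℝ) ^ (2 * k) ≤ (numCopies H A : ℝ)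

end Vale.Agent.P037
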