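import Mathlib

/-!
Nested interval partitions: some level has small drift of the type counts.
-/

open Finset

namespace Vale.Agent.P037

/-- Number of positions of type `x` in the block `[j len, (j+1) len)`. -/
def blockCnt {M : ℕ} (τ : ℕ → Fin M) (len j : ℕ) (x : Fin M) : ℕ :=
  ((range len).filter (fun i => τ (j * len + i) = x)).card

/-- Drift of the windows against their intervals. -/
def drift {M : ℕ} (τ : ℕ → Fin M) (Q D t : ℕ) : ℕ :=
  ∑ j ∈ range Q, ∑ w ∈ range D, ∑ x : Fin M,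
    Nat.dist (blockCnt τ (D * t) j x) (D * blockCnt τ t (j * D + w) x)

theorem blockCnt_split {M : ℕ} (τ : ℕ → Fin M) (D t j : ℕ) (x : Fin M) :
    blockCnt τ (D * t) j x = ∑ w ∈ range D, blockCnt τ t (j * D + w) x := by
  simp only [blockCnt, Finset.card_filter]
  induction D generalizing j with
  | zero => simp
  | succ D ih =>
    have key : ∀ E : ℕ, ∀ b : ℕ, (∑ i ∈ range (E * t), if τ (b + i) = x then 1 else 0) =
        ∑ w ∈ range E, ∑ i ∈ range t, if τ (b + w * t + i) = x then 1 else 0 := by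
      intro E
      induction E with
      | zero => simp
      | succ E ihE =>
        intro b
        rw [Nat.succ_mul, Finset.sum_range_add, Finset.sum_range_succ, ihE b]
        simp only [add_assoc]
    rw [key (D + 1) (j * ((D + 1) * t))]
    refine Finset.sum_congr rfl (fun w _ => Finset.sum_congr rfl (fun i _ => ?_))
    rw [show j * ((D + 1) * t) + w * t + i = (j * (D + 1) + w) * t + i by ring]

/-- The energy of the partition into `Q` blocks of length `len`. -/
def energy {M : ℕ} (τ : ℕ → Fin M) (Q len : ℕ) : ℕ :=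
  Q * ∑ j ∈ range Q, ∑ x : Fin M, blockCnt τ len j x ^ 2

theorem energy_le {M : ℕ} (τ : ℕ → Fin M) (Q len : ℕ) : energy τ Q len ≤ (Q * len) ^ 2 := by
  have h : ∀ j, ∑ x : Fin M, blockCnt τ len j x = len := by
    intro j
    simp only [blockCnt]
    rw [← Finset.card_eq_sum_card_fiberwise (fun i _ => Finset.mem_coe.2 (mem_univ _)),
      Finset.card_range]
  have h2 : ∀ j, ∑ x : Fin M, blockCnt τ len j x ^ 2 ≤ len ^ 2 := by
    intro j
    calc ∑ x : Fin M, blockCnt τ len j x ^ 2 ≤ ∑ x : Fin M, blockCnt τ len j x * len := by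
          refine Finset.sum_le_sum (fun x _ => ?_)
          rw [sq]
          refine Nat.mul_le_mul_left _ ?_
          exact (Finset.single_le_sum (fun y _ => Nat.zero_le (blockCnt τ len j y))
            (mem_univ x)).trans (le_of_eq (h j))
      _ = len ^ 2 := by rw [← Finset.sum_mul, h j, sq]
  unfold energy
  calc Q * ∑ j ∈ range Q, ∑ x : Fin M, blockCnt τ len j x ^ 2
      ≤ Q * ∑ _j ∈ range Q, len ^ 2 := Nat.mul_le_mul_left _ (Finset.sum_le_sum (fun j _ => h2 j))
    _ = _ := by rw [Finset.sum_const, Finset.card_range, smul_eq_mul]; ring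

theorem sum_range_block (Q D : ℕ) (f : ℕ → ℤ) :
    ∑ v ∈ range (Q * D), f v = ∑ j ∈ range Q, ∑ w ∈ range D, f (j * D + w) := by
  induction Q with
  | zero => simp
  | succ Q ih => rw [Nat.succ_mul, Finset.sum_range_add, Finset.sum_range_succ, ih]

theorem energy_step {M : ℕ} (τ : ℕ → Fin M) (Q D t : ℕ) :
    (D : ℤ) * energy τ (Q * D) t = (D : ℤ) * energy τ Q (D * t) +
      (Q : ℤ) * ∑ j ∈ range Q, ∑ w ∈ range D, ∑ x : Fin M,
        ((Nat.dist (blockCnt τ (D * t) j x) (D * blockCnt τ t (j * D + w) x) : ℕ) : ℤ) ^ 2 := by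
  have hd : ∀ a b : ℕ, ((Nat.dist a b : ℕ) : ℤ) ^ 2 = ((a : ℤ) - b) ^ 2 := by
    intro a b
    rcases le_total a b with h | h
    · rw [Nat.dist_eq_sub_of_le h, Nat.cast_sub h]; ring
    · rw [Nat.dist_eq_sub_of_le_right h, Nat.cast_sub h]
  simp only [hd, energy]
  push_cast
  rw [sum_range_block Q D (fun v => ∑ x : Fin M, ((blockCnt τ t v x : ℕ) : ℤ) ^ 2)]
  have e : ∀ j, ∑ w ∈ range D, ∑ x : Fin M,
      (((blockCnt τ (D * t) j x : ℕ) : ℤ) - (D : ℤ) * (blockCnt τ t (j * D + w) x : ℕ)) ^ 2 =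
      (D : ℤ) ^ 2 * (∑ w ∈ range D, ∑ x : Fin M, ((blockCnt τ t (j * D + w) x : ℕ) : ℤ) ^ 2) -
        (D : ℤ) * ∑ x : Fin M, ((blockCnt τ (D * t) j x : ℕ) : ℤ) ^ 2 := by
    intro j
    rw [Finset.sum_comm, Finset.sum_comm (s := range D) (t := univ), Finset.mul_sum, Finset.mul_sum,
      ← Finset.sum_sub_distrib]
    refine Finset.sum_congr rfl (fun x _ => ?_)
    have hs : ((blockCnt τ (D * t) j x : ℕ) : ℤ) =
        ∑ w ∈ range D, ((blockCnt τ t (j * D + w) x : ℕ) : ℤ) := by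
      rw [blockCnt_split]; push_cast; rfl
    simp only [sub_sq, Finset.sum_add_distrib, Finset.sum_sub_distrib, Finset.sum_const,
      Finset.card_range, nsmul_eq_mul, ← Finset.mul_sum, mul_pow]
    rw [← hs]
    ring
  simp only [e, Finset.sum_sub_distrib, ← Finset.mul_sum]
  ring

/-- Block numbers of the levels. -/
def levelQ (D : ℕ → ℕ) : ℕ → ℕ
  | 0 => 1
  | l + 1 => levelQ D l * D (levelQ D l)

theorem levelQ_dvd (D : ℕ → ℕ) {l l' : ℕ} (h : l ≤ l') : levelQ D l ∣ levelQ D l' := by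
  induction h with
  | refl => exact dvd_rfl
  | step _ ih => exact ih.trans (Dvd.intro _ rfl)

theorem levelQ_pos (D : ℕ → ℕ) (hD : ∀ Q, 1 ≤ Q → 1 ≤ D Q) : ∀ l, 1 ≤ levelQ D l := by
  intro l
  induction l with
  | zero => exact le_rfl
  | succ l ih => exact Nat.mul_pos ih (hD _ ih)

/-- Some level has small drift. -/
theorem exists_level {M : ℕ} (τ : ℕ → Fin M) (D : ℕ → ℕ) (hD : ∀ Q, 1 ≤ Q → 1 ≤ D Q)
    (hM : 1 ≤ M) {a : ℕ} (ha : 1 ≤ a) (t0 : ℕ) :
    ∃ l < M * a ^ 2, ∃ t, t0 ≤ t ∧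
      levelQ D l * D (levelQ D l) * t = levelQ D (M * a ^ 2) * t0 ∧
      a * drift τ (levelQ D l) (D (levelQ D l)) t ≤
        D (levelQ D l) * (levelQ D (M * a ^ 2) * t0) := by
  set L := M * a ^ 2 with hL
  set G := levelQ D L with hG
  set len : ℕ → ℕ := fun l => (G / levelQ D l) * t0 with hlen
  have hlen' : ∀ l, l ≤ L → levelQ D l * len l = G * t0 := by
    intro l hl
    rw [hlen, ← mul_assoc, Nat.mul_div_cancel' (levelQ_dvd D hl)]
  set E : ℕ → ℤ := fun l => (energy τ (levelQ D l) (len l) : ℕ) with hE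
  obtain ⟨l, hl, hgood⟩ : ∃ l ∈ range L, (L : ℤ) * (E (l + 1) - E l) ≤ ((G * t0 : ℕ) : ℤ) ^ 2 := by
    by_contra hc
    push Not at hc
    have hLpos : (range L).Nonempty := Finset.nonempty_range_iff.2 (by positivity)
    have h1 := Finset.sum_lt_sum_of_nonempty hLpos hc
    rw [← Finset.mul_sum, Finset.sum_range_sub E, Finset.sum_const, Finset.card_range,
      nsmul_eq_mul] at h1
    have h0 : (0 : ℤ) ≤ E 0 := Int.natCast_nonneg _
    have hmax : E L ≤ ((G * t0 : ℕ) : ℤ) ^ 2 := by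
      have := energy_le τ (levelQ D L) (len L)
      rw [hlen' L le_rfl] at this
      simp only [hE]
      exact_mod_cast this
    have hLn : (0 : ℤ) ≤ L := Int.natCast_nonneg _
    have := mul_le_mul_of_nonneg_left hmax hLn
    nlinarith
  rw [Finset.mem_range] at hl
  set Q := levelQ D l with hQ
  set d := D Q with hd
  set t := len (l + 1) with ht
  have hQpos : 1 ≤ Q := levelQ_pos D hD l
  have hdpos : 1 ≤ d := hD Q hQpos
  have hnext : levelQ D (l + 1) = Q * d := rfl
  have hQdt : Q * d * t = G * t0 := by rw [← hnext]; exact hlen' (l + 1) hl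
  have hlenl : len l = d * t := by
    have h1 := hlen' l hl.le
    rw [← hQdt, ← hQ] at h1
    exact Nat.eq_of_mul_eq_mul_left hQpos (by rw [h1]; ring)
  refine ⟨l, hl, t, ?_, hQdt, ?_⟩
  · rw [ht, hlen]
    exact Nat.le_mul_of_pos_left _ (Nat.div_pos (Nat.le_of_dvd (levelQ_pos D hD L)
      (levelQ_dvd D hl)) (levelQ_pos D hD _))
  · set S2 : ℤ := ∑ j ∈ range Q, ∑ w ∈ range d, ∑ x : Fin M,
      ((Nat.dist (blockCnt τ (d * t) j x) (d * blockCnt τ t (j * d + w) x) : ℕ) : ℤ) ^ 2 with hS2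
    have hstep := energy_step τ Q d t
    rw [← hS2] at hstep
    have hEl : E l = (energy τ Q (d * t) : ℕ) := by simp only [hE, ← hQ, hlenl]
    have hEl1 : E (l + 1) = (energy τ (Q * d) t : ℕ) := by simp only [hE, hnext, ← ht]
    have hQS : (L : ℤ) * ((Q : ℤ) * S2) ≤ (d : ℤ) * ((G * t0 : ℕ) : ℤ) ^ 2 := by
      calc (L : ℤ) * ((Q : ℤ) * S2) = (d : ℤ) * ((L : ℤ) * (E (l + 1) - E l)) := by
            rw [hEl, hEl1]; linear_combination -(L : ℤ) * hstep
        _ ≤ _ := mul_le_mul_of_nonneg_left hgood (Int.natCast_nonneg _)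
    have hcs : ((drift τ Q d t : ℕ) : ℤ) ^ 2 ≤ ((Q * d * M : ℕ) : ℤ) * S2 := by
      have h := sq_sum_le_card_mul_sum_sq
        (s := range Q ×ˢ (range d ×ˢ (univ : Finset (Fin M))))
        (f := fun p => ((Nat.dist (blockCnt τ (d * t) p.1 p.2.2)
          (d * blockCnt τ t (p.1 * d + p.2.1) p.2.2) : ℕ) : ℤ))
      simp only [Finset.sum_product, Finset.card_product, Finset.card_range, Finset.card_univ,
        Fintype.card_fin] at h
      rw [drift, hS2]
      push_cast
      push_cast at h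
      rw [mul_assoc (Q : ℤ)]
      exact h
    have hfin : ((a * drift τ Q d t : ℕ) : ℤ) ^ 2 ≤ ((d * (G * t0) : ℕ) : ℤ) ^ 2 := by
      have hMpos : (0 : ℤ) < M := by exact_mod_cast hM
      refine le_of_mul_le_mul_left ?_ hMpos
      calc (M : ℤ) * ((a * drift τ Q d t : ℕ) : ℤ) ^ 2
          = (L : ℤ) * ((drift τ Q d t : ℕ) : ℤ) ^ 2 := by rw [hL]; push_cast; ring
        _ ≤ (L : ℤ) * (((Q * d * M : ℕ) : ℤ) * S2) := mul_le_mul_of_nonneg_left hcs (Int.natCast_nonneg _)
        _ = ((d : ℤ) * M) * ((L : ℤ) * ((Q : ℤ) * S2)) := by push_cast; ring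
        _ ≤ ((d : ℤ) * M) * ((d : ℤ) * ((G * t0 : ℕ) : ℤ) ^ 2) :=
            mul_le_mul_of_nonneg_left hQS (by positivity)
        _ = _ := by push_cast; ring
    have := (pow_le_pow_iff_left₀ (Int.natCast_nonneg _) (Int.natCast_nonneg _) two_ne_zero).1 hfin
    exact_mod_cast this

end Vale.Agent.P037
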