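import Mathlib
import Vale.Agent.P037.Defs

/-!
Counting over uniform samples, and copies inside a sampled set of columns.
-/

open Finset

namespace Vale.Agent.P037

open scoped Classical in
theorem card_pi_constraint {ι α : Type*} [Fintype ι] [DecidableEq ι] [Fintype α] (T : Finset ι)
    (S : ι → Finset α) :
    (univ.filter (fun X : ι → α => ∀ a ∈ T, X a ∈ S a)).card * Fintype.card α ^ T.card =
      (∏ a ∈ T, (S a).card) * Fintype.card α ^ Fintype.card ι := by
  have e : univ.filter (fun X : ι → α => ∀ a ∈ T, X a ∈ S a) =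
      Fintype.piFinset (fun a => if a ∈ T then S a else univ) := by
    ext X
    simp only [Finset.mem_filter, mem_univ, true_and, Fintype.mem_piFinset]
    constructor
    · intro h a
      split_ifs with ha
      · exact h a ha
      · exact mem_univ _
    · intro h a ha
      simpa [ha] using h a
  rw [e, Fintype.card_piFinset, ← Finset.prod_mul_prod_compl T]
  rw [Finset.prod_congr rfl (fun a ha => by rw [if_pos ha] : ∀ a ∈ T, _ = (S a).card),
    Finset.prod_congr rfl (fun a ha => by rw [if_neg (Finset.mem_compl.1 ha), Finset.card_univ] :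
      ∀ a ∈ Tᶜ, _ = Fintype.card α),
    Finset.prod_const, Finset.card_compl, mul_assoc, ← pow_add,
    Nat.sub_add_cancel (Finset.card_le_univ T)]

open scoped Classical in
/-- A given tuple of distinct points is hit by few samples. -/
theorem card_hit {ι α β : Type*} [Fintype ι] [DecidableEq ι] [Fintype α] {k : ℕ} (f : ι → α → β)
    (hf : ∀ a, Function.Injective (f a)) (c : Fin k → β) (hc : Function.Injective c) :
    (univ.filter (fun X : ι → α => ∀ i, ∃ a, f a (X a) = c i)).card * Fintype.card α ^ k ≤
      Fintype.card ι ^ k * Fintype.card α ^ Fintype.card ι := by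
  have hsub : univ.filter (fun X : ι → α => ∀ i, ∃ a, f a (X a) = c i) ⊆
      (univ : Finset (Fin k → ι)).biUnion
        (fun g => univ.filter (fun X : ι → α => ∀ i, f (g i) (X (g i)) = c i)) := by
    intro X hX
    choose g hg using (Finset.mem_filter.1 hX).2
    exact Finset.mem_biUnion.2 ⟨g, mem_univ _, Finset.mem_filter.2 ⟨mem_univ _, hg⟩⟩
  refine le_trans (Nat.mul_le_mul_right _ (le_trans (Finset.card_le_card hsub)
    Finset.card_biUnion_le)) ?_
  rw [Finset.sum_mul]
  refine le_trans (Finset.sum_le_card_nsmul _ _ (Fintype.card α ^ Fintype.card ι) (fun g _ => ?_))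
    (by simp)
  by_cases hg : Function.Injective g
  · set S : ι → Finset α := fun a => univ.filter (fun x => ∃ i, g i = a ∧ f a x = c i) with hS
    have hsub2 : univ.filter (fun X : ι → α => ∀ i, f (g i) (X (g i)) = c i) ⊆
        univ.filter (fun X : ι → α => ∀ a ∈ univ.image g, X a ∈ S a) := by
      intro X hX
      refine Finset.mem_filter.2 ⟨mem_univ _, fun a ha => ?_⟩
      obtain ⟨i, -, rfl⟩ := Finset.mem_image.1 ha
      exact Finset.mem_filter.2 ⟨mem_univ _, i, rfl, (Finset.mem_filter.1 hX).2 i⟩
    have hT : (univ.image g).card = k := by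
      rw [Finset.card_image_of_injective _ hg]; simp
    refine le_trans (Nat.mul_le_mul_right _ (Finset.card_le_card hsub2)) ?_
    have hcpc := card_pi_constraint (α := α) (univ.image g) S
    rw [hT] at hcpc
    rw [hcpc]
    refine le_trans (Nat.mul_le_mul_right _ (Finset.prod_le_one' (fun a _ => ?_))) (by rw [one_mul])
    refine Finset.card_le_one.2 (fun x hx y hy => ?_)
    obtain ⟨i, hi, hxi⟩ := (Finset.mem_filter.1 hx).2
    obtain ⟨j, hj, hyj⟩ := (Finset.mem_filter.1 hy).2
    obtain rfl := hg (hi.trans hj.symm)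
    exact hf a (hxi.trans hyj.symm)
  · have : univ.filter (fun X : ι → α => ∀ i, f (g i) (X (g i)) = c i) = ∅ := by
      refine Finset.filter_eq_empty_iff.2 (fun X _ hX => hg (fun i j hij => hc ?_))
      rw [← hX i, ← hX j, hij]
    rw [this]; simp

variable {n k : ℕ}

/-- Number of row tuples completing the column tuple `e` to a copy. -/
noncomputable def rowCopies (H : Fin k → Fin k → Bool) (A : Fin n → Fin n → Bool)
    (e : Fin k → Fin n) : ℕ := by
  classical
  exact (univ.filter (fun r : Fin k → Fin n => StrictMono r ∧ ∀ i j, A (r i) (e j) = H i j)).card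

/-- Increasing column tuples inside `C`. -/
noncomputable def colTuples (k : ℕ) {n : ℕ} (C : Finset (Fin n)) : Finset (Fin k → Fin n) := by
  classical
  exact univ.filter (fun e => StrictMono e ∧ ∀ j, e j ∈ C)

theorem mem_colTuples {C : Finset (Fin n)} {e : Fin k → Fin n} :
    e ∈ colTuples k C ↔ StrictMono e ∧ ∀ j, e j ∈ C := by
  classical
  simp [colTuples]

/-- Copies with all columns inside `C`. -/
noncomputable def copiesOn (H : Fin k → Fin k → Bool) (A : Fin n → Fin n → Bool)
    (C : Finset (Fin n)) : ℕ :=
  ∑ e ∈ colTuples k C, rowCopies H A e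

open scoped Classical in
theorem numCopies_eq (H : Fin k → Fin k → Bool) (A : Fin n → Fin n → Bool) :
    numCopies H A = ∑ e ∈ (univ.filter (fun e : Fin k → Fin n => StrictMono e)), rowCopies H A e := by
  unfold numCopies
  rw [Finset.card_eq_sum_card_fiberwise (f := Prod.snd)
    (t := univ.filter (fun e : Fin k → Fin n => StrictMono e))
    (fun p hp => by
      simp only [Finset.coe_filter, Set.mem_setOf_eq, mem_univ, true_and] at hp ⊢
      exact hp.2.1)]
  refine Finset.sum_congr rfl (fun e he => ?_)
  unfold rowCopies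
  refine Finset.card_bij' (fun p _ => p.1) (fun r _ => (r, e)) ?_ ?_ ?_ ?_
  · intro p hp
    simp only [Finset.mem_filter, mem_univ, true_and] at hp ⊢
    obtain ⟨⟨h1, -, h3⟩, h4⟩ := hp
    exact ⟨h1, fun i j => h4 ▸ h3 i j⟩
  · intro r hr
    simp only [Finset.mem_filter, mem_univ, true_and] at hr he ⊢
    exact ⟨⟨hr.1, he, hr.2⟩, trivial⟩
  · intro p hp
    simp only [Finset.mem_filter, mem_univ, true_and] at hp
    exact Prod.ext rfl hp.2.symm
  · intro r _
    rfl

open scoped Classical in
theorem copiesOn_eq (H : Fin k → Fin k → Bool) (A : Fin n → Fin n → Bool) (C : Finset (Fin n)) :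
    copiesOn H A C = ∑ e ∈ univ.filter (fun e : Fin k → Fin n => StrictMono e),
      if ∀ i, e i ∈ C then rowCopies H A e else 0 := by
  rw [copiesOn, ← Finset.sum_filter, Finset.filter_filter]
  refine Finset.sum_congr ?_ (fun _ _ => rfl)
  ext e
  rw [mem_colTuples, Finset.mem_filter]
  exact (and_iff_right (mem_univ _)).symm

open scoped Classical in
theorem sum_copiesOn {ι α : Type*} [Fintype ι] [DecidableEq ι] [Fintype α] (f : ι → α → Fin n)
    (hf : ∀ a, Function.Injective (f a)) (H : Fin k → Fin k → Bool) (A : Fin n → Fin n → Bool) :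
    (∑ X : ι → α, copiesOn H A (univ.image (fun a => f a (X a)))) * Fintype.card α ^ k ≤
      Fintype.card ι ^ k * Fintype.card α ^ Fintype.card ι * numCopies H A := by
  rw [numCopies_eq, Finset.mul_sum, Finset.sum_congr rfl (fun X _ => copiesOn_eq H A _),
    Finset.sum_comm, Finset.sum_mul]
  refine Finset.sum_le_sum (fun e he => ?_)
  have h1 := card_hit f hf e (Finset.mem_filter.1 he).2.injective
  generalize rowCopies H A e = v
  rw [← Finset.sum_filter, Finset.sum_const, smul_eq_mul, mul_right_comm]
  refine Nat.mul_le_mul_right v (le_trans (le_of_eq ?_) h1)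
  congr 2
  ext X
  simp only [Finset.mem_filter, Finset.mem_image, mem_univ, true_and]

open scoped Classical in
/-- Some sample is good for two nonnegative quantities at once. -/
theorem exists_le_pair {Ω : Type*} [Fintype Ω] [Nonempty Ω] (f g : Ω → ℕ) {a b : ℕ}
    (hf : ∑ x, f x ≤ a * Fintype.card Ω) (hg : ∑ x, g x ≤ b * Fintype.card Ω) :
    ∃ x, f x ≤ 2 * a ∧ g x ≤ 2 * b := by
  by_contra hc
  push Not at hc
  have hkey : ∀ (h : Ω → ℕ) (c : ℕ), (∑ x, h x ≤ c * Fintype.card Ω) →
      2 * (univ.filter (fun x => 2 * c < h x)).card < Fintype.card Ω := by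
    intro h c hh
    have h1 : (univ.filter (fun x => 2 * c < h x)).card * (2 * c + 1) ≤ ∑ x, h x := by
      have h3 := Finset.card_nsmul_le_sum (univ.filter (fun x => 2 * c < h x)) h (2 * c + 1)
        (fun x hx => (Finset.mem_filter.1 hx).2)
      rw [smul_eq_mul] at h3
      exact h3.trans (Finset.sum_le_sum_of_subset (Finset.subset_univ _))
    have h2 : 0 < Fintype.card Ω := Fintype.card_pos
    nlinarith
  have hu : (univ : Finset Ω) ⊆
      univ.filter (fun x => 2 * a < f x) ∪ univ.filter (fun x => 2 * b < g x) := by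
    intro x _
    simp only [Finset.mem_union, Finset.mem_filter, mem_univ, true_and]
    by_cases hx : f x ≤ 2 * a
    · exact Or.inr (hc x hx)
    · exact Or.inl (not_le.1 hx)
  have := (Finset.card_le_card hu).trans (Finset.card_union_le _ _)
  rw [Finset.card_univ] at this
  have := hkey f a hf
  have := hkey g b hg
  omega

end Vale.Agent.P037
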