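import Mathlib
import Vale.Agent.P037.Defs

/-!
A free submatrix has polynomially many distinct columns on its rows.
-/

open Finset

namespace Vale.Agent.P037

variable {n : ℕ}

/-- No copy of `H` has all rows in `R` and all columns in `C`. -/
def FreeOn {k : ℕ} (H : Fin k → Fin k → Bool) (A : Fin n → Fin n → Bool)
    (R C : Finset (Fin n)) : Prop :=
  ∀ r c : Fin k → Fin n, (∀ i, r i ∈ R) → (∀ i, c i ∈ C) → ¬ IsCopy H A (r, c)

theorem card_small_powerset {α : Type*} [DecidableEq α] (R : Finset α) (d : ℕ) :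
    (R.powerset.filter (fun s => s.card ≤ d)).card ≤ (R.card + 1) ^ d := by
  induction d with
  | zero =>
    refine le_trans (Finset.card_le_card (t := {∅}) ?_) (by simp)
    intro s hs
    simp only [Finset.mem_filter, Nat.le_zero, Finset.card_eq_zero] at hs
    simp [hs.2]
  | succ d ih =>
    have hsub : R.powerset.filter (fun s => s.card ≤ d + 1) ⊆
        R.powerset.filter (fun s => s.card ≤ d) ∪ R.powersetCard (d + 1) := by
      intro s hs
      simp only [Finset.mem_filter, Finset.mem_powerset] at hs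
      simp only [Finset.mem_union, Finset.mem_filter, Finset.mem_powerset, Finset.mem_powersetCard]
      rcases hs.2.lt_or_eq with h | h
      · exact Or.inl ⟨hs.1, by omega⟩
      · exact Or.inr ⟨hs.1, h⟩
    refine le_trans (Finset.card_le_card hsub) (le_trans (Finset.card_union_le _ _) ?_)
    rw [Finset.card_powersetCard]
    calc (R.powerset.filter (fun s => s.card ≤ d)).card + R.card.choose (d + 1)
        ≤ (R.card + 1) ^ d + R.card ^ (d + 1) := Nat.add_le_add ih (Nat.choose_le_pow _ _)
      _ ≤ (R.card + 1) ^ d + R.card * (R.card + 1) ^ d := by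
          rw [pow_succ' R.card d]
          exact Nat.add_le_add_left (Nat.mul_le_mul_left _ (Nat.pow_le_pow_left (Nat.le_succ _) d)) _
      _ = _ := by ring

/-- `u` beats the factor `4 k`. -/
def GoodU (k u : ℕ) : Prop := 4 * k * (2 ^ k - 1) ^ u < (2 ^ k) ^ u

theorem exists_goodU (k : ℕ) : ∃ u, 1 ≤ u ∧ GoodU k u := by
  have hx : (((2 ^ k - 1 : ℕ) : ℝ) / ((2 ^ k : ℕ) : ℝ)) < 1 := by
    rw [div_lt_one (by positivity)]
    have : 2 ^ k - 1 < 2 ^ k := Nat.sub_lt (by positivity) Nat.one_pos
    exact_mod_cast this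
  obtain ⟨v, hv⟩ := exists_pow_lt_of_lt_one (show (0:ℝ) < 1 / (4 * (k : ℝ) + 1) by positivity) hx
  refine ⟨v + 1, by omega, ?_⟩
  have h0 : (0 : ℝ) ≤ (((2 ^ k - 1 : ℕ) : ℝ) / ((2 ^ k : ℕ) : ℝ)) := by positivity
  have h1 : (((2 ^ k - 1 : ℕ) : ℝ) / ((2 ^ k : ℕ) : ℝ)) ^ (v + 1) < 1 / (4 * (k : ℝ) + 1) :=
    lt_of_le_of_lt (pow_le_pow_of_le_one h0 hx.le (Nat.le_succ v)) hv
  rw [div_pow, div_lt_div_iff₀ (by positivity) (by positivity), one_mul] at h1
  have h2 : ((4 * k * (2 ^ k - 1) ^ (v + 1) : ℕ) : ℝ) < (((2 ^ k) ^ (v + 1) : ℕ) : ℝ) := by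
    push_cast at h1 ⊢
    have : (0 : ℝ) ≤ ((2 ^ k - 1 : ℕ) : ℝ) ^ (v + 1) := by positivity
    linarith
  exact_mod_cast h2

/-- The exponent of the column bound. -/
noncomputable def dimH (k : ℕ) : ℕ := k * (exists_goodU k).choose * k

theorem dimH_pos {k : ℕ} (hk : 1 ≤ k) : 1 ≤ dimH k := by
  have := (exists_goodU k).choose_spec.1
  exact Nat.mul_pos (Nat.mul_pos hk this) hk

/-- A free submatrix shatters no set of `dimH k` rows. -/
theorem not_shatter {k : ℕ} (hk : 1 ≤ k) (H : Fin k → Fin k → Bool) (A : Fin n → Fin n → Bool)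
    {R C : Finset (Fin n)} (hfree : FreeOn H A R C) {S : Finset (Fin n)} (hS : S ⊆ R)
    (hcard : S.card = dimH k) :
    ¬ (C.image (fun c => R.filter (fun r => A r c))).Shatters S := by
  classical
  intro hsh
  obtain ⟨hu1, hu⟩ := (exists_goodU k).choose_spec
  set u := (exists_goodU k).choose with hudef
  set q := k * u with hq
  have hd : S.card = q * k := hcard
  let e := S.orderEmbOfFin hd
  let row : Fin q → Fin k → Fin n := fun g i => e (finProdFinEquiv (g, i))
  have hrowR : ∀ g i, row g i ∈ R := fun g i => hS (Finset.orderEmbOfFin_mem _ _ _)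
  have hrowmono : ∀ g, StrictMono (row g) := by
    intro g a b hab
    apply e.strictMono
    simp only [Fin.lt_def, finProdFinEquiv_apply_val]
    omega
  have hex : ∀ f : Fin q → Fin k → Bool, ∃ c ∈ C, ∀ g i, A (row g i) c = f g i := by
    intro f
    set t := (univ : Finset (Fin q × Fin k)).filter (fun x => f x.1 x.2) |>.image
      (fun x => row x.1 x.2) with ht
    have htS : t ⊆ S := by
      intro x hx
      obtain ⟨y, -, rfl⟩ := Finset.mem_image.1 hx
      exact Finset.orderEmbOfFin_mem _ _ _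
    obtain ⟨v, hv, hvt⟩ := hsh htS
    obtain ⟨c, hc, rfl⟩ := Finset.mem_image.1 hv
    refine ⟨c, hc, fun g i => ?_⟩
    have h1 : row g i ∈ t ↔ f g i = true := by
      rw [ht, Finset.mem_image]
      constructor
      · rintro ⟨⟨g', i'⟩, hmem, heq⟩
        have := finProdFinEquiv.injective (e.injective heq)
        simp only [Prod.mk.injEq] at this
        obtain ⟨rfl, rfl⟩ := this
        exact (Finset.mem_filter.1 hmem).2
      · exact fun hf => ⟨(g, i), Finset.mem_filter.2 ⟨mem_univ _, hf⟩, rfl⟩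
    have h2 : row g i ∈ t ↔ A (row g i) c = true := by
      rw [← hvt, Finset.mem_inter, Finset.mem_filter]
      exact ⟨fun h => h.2.2, fun h => ⟨Finset.orderEmbOfFin_mem _ _ _, hrowR g i, h⟩⟩
    exact Bool.eq_iff_iff.2 (h2.symm.trans h1)
  choose col hcolC hcol using hex
  have hcolinj : Function.Injective col := fun f f' hff => by
    funext g i; rw [← hcol f g i, ← hcol f' g i, hff]
  set cols := (univ : Finset (Fin q → Fin k → Bool)).image col with hcols
  have hN : cols.card = (2 ^ k) ^ q := by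
    rw [hcols, Finset.card_image_of_injective _ hcolinj]; simp
  set N := (2 ^ k) ^ q with hNdef
  set L := N / k with hLdef
  let emb := cols.orderEmbOfFin hN
  have hidx : ∀ (j : Fin k) (l : Fin L), (j : ℕ) * L + l < N := by
    intro j l
    calc (j : ℕ) * L + l < (j : ℕ) * L + L := Nat.add_lt_add_left l.2 _
      _ = ((j : ℕ) + 1) * L := by ring
      _ ≤ k * L := Nat.mul_le_mul_right _ j.2
      _ ≤ N := Nat.mul_div_le N k
  let pick : Fin k → Fin L → (Fin q → Fin k → Bool) := fun j l g i =>
    A (row g i) (emb ⟨(j : ℕ) * L + l, hidx j l⟩)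
  have hpickinj : ∀ j, Function.Injective (pick j) := by
    intro j l l' hll
    obtain ⟨f, -, hf⟩ := Finset.mem_image.1 (Finset.orderEmbOfFin_mem cols hN ⟨_, hidx j l⟩)
    obtain ⟨f', -, hf'⟩ := Finset.mem_image.1 (Finset.orderEmbOfFin_mem cols hN ⟨_, hidx j l'⟩)
    have hff : f = f' := by
      funext g i
      rw [← hcol f g i, ← hcol f' g i, hf, hf']
      exact congrFun (congrFun hll g) i
    have h := emb.injective (show emb ⟨_, hidx j l⟩ = emb ⟨_, hidx j l'⟩ by
      rw [← hf, ← hf', hff])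
    simp only [Fin.mk.injEq] at h
    exact Fin.ext (by omega)
  by_cases hfull : ∃ g : Fin q, ∀ (j : Fin k) (v : Fin k → Bool), ∃ l, pick j l g = v
  · obtain ⟨g, hg⟩ := hfull
    choose l hl using fun j => hg j (fun i => H i j)
    refine hfree (row g) (fun j => emb ⟨_, hidx j (l j)⟩) (hrowR g) (fun j => ?_) ?_
    · obtain ⟨f, -, hf⟩ := Finset.mem_image.1
        (Finset.orderEmbOfFin_mem cols hN ⟨_, hidx j (l j)⟩)
      exact hf ▸ hcolC f
    · refine ⟨hrowmono g, fun a b hab => emb.strictMono ?_, fun i j => congrFun (hl j) i⟩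
      simp only [Fin.lt_def] at hab ⊢
      calc (a : ℕ) * L + l a < (a : ℕ) * L + L := Nat.add_lt_add_left (l a).2 _
        _ = ((a : ℕ) + 1) * L := by ring
        _ ≤ (b : ℕ) * L := Nat.mul_le_mul_right _ hab
        _ ≤ _ := Nat.le_add_right _ _
  · push Not at hfull
    choose jb vb hvb using hfull
    have : Nonempty (Fin k) := ⟨⟨0, hk⟩⟩
    obtain ⟨j, hj⟩ := Fintype.exists_le_card_fiber_of_mul_le_card (f := jb) (n := u)
      (by rw [Fintype.card_fin, Fintype.card_fin])
    set G := univ.filter (fun g => jb g = j) with hG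
    have hsub : (univ : Finset (Fin L)).image (pick j) ⊆ Fintype.piFinset (fun g : Fin q =>
        if g ∈ G then (univ.erase (vb g)) else univ) := by
      intro f hf
      obtain ⟨l, -, rfl⟩ := Finset.mem_image.1 hf
      rw [Fintype.mem_piFinset]
      intro g
      by_cases hgG : g ∈ G
      · rw [if_pos hgG, Finset.mem_erase]
        have hjg : jb g = j := (Finset.mem_filter.1 hgG).2
        exact ⟨hjg ▸ hvb g l, mem_univ _⟩
      · rw [if_neg hgG]; exact mem_univ _
    have h1 := Finset.card_le_card hsub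
    rw [Finset.card_image_of_injective _ (hpickinj j), Fintype.card_piFinset, Finset.card_univ,
      Fintype.card_fin] at h1
    have h2 : ∏ g : Fin q, (if g ∈ G then univ.erase (vb g) else univ).card =
        (2 ^ k - 1) ^ G.card * (2 ^ k) ^ (q - G.card) := by
      rw [← Finset.prod_mul_prod_compl G]
      congr 1
      · rw [Finset.prod_congr rfl (fun g hg => ?_), Finset.prod_const]
        rw [if_pos hg, Finset.card_erase_of_mem (mem_univ _)]; simp
      · rw [Finset.prod_congr rfl (fun g hg => ?_), Finset.prod_const, Finset.card_compl,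
          Fintype.card_fin]
        rw [if_neg (Finset.mem_compl.1 hg)]; simp
    rw [h2] at h1
    have hGu : u ≤ G.card := hj
    have hGq : G.card ≤ q := by simpa using G.card_le_univ
    have h3 : (2 ^ k - 1) ^ G.card * (2 ^ k) ^ (q - G.card) ≤
        (2 ^ k - 1) ^ u * (2 ^ k) ^ (q - u) := by
      obtain ⟨x, hx⟩ := Nat.exists_eq_add_of_le hGu
      rw [hx, pow_add, mul_assoc, show q - u = x + (q - (u + x)) by omega, pow_add]
      exact Nat.mul_le_mul_left _ (Nat.mul_le_mul_right _
        (Nat.pow_le_pow_left (Nat.sub_le _ _) x))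
    have h4 : 4 * k * L < N := by
      calc 4 * k * L ≤ 4 * k * ((2 ^ k - 1) ^ u * (2 ^ k) ^ (q - u)) :=
            Nat.mul_le_mul_left _ (h1.trans h3)
        _ = (4 * k * (2 ^ k - 1) ^ u) * (2 ^ k) ^ (q - u) := by ring
        _ < (2 ^ k) ^ u * (2 ^ k) ^ (q - u) := Nat.mul_lt_mul_of_pos_right hu (by positivity)
        _ = N := by rw [← pow_add, Nat.add_sub_cancel' (by nlinarith), hNdef]
    have h5 : N < k * (L + 1) := Nat.lt_mul_div_succ N hk
    have h6 : 2 * k ≤ N := by
      have hk2 : k < 2 ^ k := Nat.lt_two_pow_self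
      rcases Nat.lt_or_ge k 2 with hk' | hk'
      · obtain rfl : k = 1 := by omega
        calc 2 * 1 ≤ (2 ^ 1) ^ 1 := by norm_num
          _ ≤ N := Nat.pow_le_pow_right (by norm_num) (by rw [hq]; nlinarith)
      · calc 2 * k ≤ (2 ^ k) ^ 2 := by nlinarith
          _ ≤ N := Nat.pow_le_pow_right (by positivity) (by rw [hq]; nlinarith)
    nlinarith

/-- Distinct columns of a free submatrix. -/
theorem card_traces_le {k : ℕ} (hk : 1 ≤ k) (H : Fin k → Fin k → Bool)
    (A : Fin n → Fin n → Bool) {R C : Finset (Fin n)} (hfree : FreeOn H A R C) :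
    (C.image (fun c => R.filter (fun r => A r c))).card ≤ (R.card + 1) ^ dimH k := by
  refine (Finset.card_le_card_shatterer _).trans
    (le_trans (Finset.card_le_card ?_) (card_small_powerset R (dimH k)))
  intro s hs
  rw [Finset.mem_shatterer] at hs
  have hsR : s ⊆ R := by
    obtain ⟨t, ht, hst⟩ := hs.exists_superset
    obtain ⟨c, -, rfl⟩ := Finset.mem_image.1 ht
    exact hst.trans (Finset.filter_subset _ _)
  refine Finset.mem_filter.2 ⟨Finset.mem_powerset.2 hsR, ?_⟩
  by_contra hlt
  push Not at hlt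
  obtain ⟨s', hs', hcard⟩ := Finset.exists_subset_card_eq hlt.le
  exact not_shatter hk H A hfree (hs'.trans hsR) hcard (hs.mono_right hs')

end Vale.Agent.P037
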