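import Mathlib
import Vale.Agent.P037.Shatter
import Vale.Agent.P037.Sampling

/-!
Separated sets of columns inside a sample with few copies are small, and a small global net.
-/

open Finset

namespace Vale.Agent.P037

/-- Hamming distance of two columns. -/
def ndist {n : ℕ} (A : Fin n → Fin n → Bool) (c c' : Fin n) : ℕ :=
  (univ.filter (fun r => A r c ≠ A r c')).card

theorem ndist_comm {n : ℕ} (A : Fin n → Fin n → Bool) (c c' : Fin n) :
    ndist A c c' = ndist A c' c := by
  unfold ndist
  congr 1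
  ext r
  simp [ne_comm]

theorem ndist_self {n : ℕ} (A : Fin n → Fin n → Bool) (c : Fin n) : ndist A c c = 0 := by
  simp [ndist]

theorem ndist_le {n : ℕ} (A : Fin n → Fin n → Bool) (c c' : Fin n) : ndist A c c' ≤ n :=
  le_trans (Finset.card_filter_le _ _) (by simp)

theorem ndist_triangle {n : ℕ} (A : Fin n → Fin n → Bool) (a b c : Fin n) :
    ndist A a c ≤ ndist A a b + ndist A b c := by
  refine le_trans (Finset.card_le_card ?_) (Finset.card_union_le _ _)
  intro r hr
  simp only [Finset.mem_union, Finset.mem_filter, mem_univ, true_and] at hr ⊢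
  by_contra hc
  push Not at hc
  exact hr (hc.1.trans hc.2)

/-- Bernoulli's inequality without division. -/
theorem bernoulli_nat (x d : ℕ) : ∀ u : ℕ, x ^ u * (x + u * d) ≤ (x + d) ^ u * x := by
  intro u
  induction u with
  | zero => simp
  | succ u ih =>
    have h0 : x * (x + (u + 1) * d) ≤ (x + d) * (x + u * d) := by
      nlinarith [Nat.zero_le (u * d * d)]
    calc x ^ (u + 1) * (x + (u + 1) * d) = x ^ u * (x * (x + (u + 1) * d)) := by ring
      _ ≤ x ^ u * ((x + d) * (x + u * d)) := Nat.mul_le_mul_left _ h0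
      _ = (x + d) * (x ^ u * (x + u * d)) := by ring
      _ ≤ (x + d) * ((x + d) ^ u * x) := Nat.mul_le_mul_left _ ih
      _ = (x + d) ^ (u + 1) * x := by ring

theorem double_pow {x d u : ℕ} (h : x ≤ u * d) (hu : 1 ≤ u) : 2 * x ^ u ≤ (x + d) ^ u := by
  rcases Nat.eq_zero_or_pos x with rfl | hx
  · rw [zero_pow (by omega)]; simp
  · have h1 := bernoulli_nat x d u
    have h2 : x ^ u * (2 * x) ≤ (x + d) ^ u * x :=
      le_trans (Nat.mul_le_mul_left _ (by omega)) h1
    exact Nat.le_of_mul_le_mul_right (by linarith) hx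

theorem mul_pow_le (x d u : ℕ) : u * d * x ^ u ≤ (x + d) ^ u * (x + d) := by
  have h1 := bernoulli_nat x d u
  nlinarith [Nat.zero_le ((x + d) ^ u * d), Nat.zero_le (x ^ u * x)]

variable {n k : ℕ}

open scoped Classical in
/-- Pairwise far columns inside a set with few copies are few. -/
theorem packing (hk : 1 ≤ k) (H : Fin k → Fin k → Bool) (A : Fin n → Fin n → Bool)
    {u ℓ S : ℕ} (hn : 0 < n) (hu : 1 ≤ u) (hℓ : 4 * S ^ 2 ≤ 2 ^ ℓ)
    {C : Finset (Fin n)} (hC : C.card ≤ S) (hfew : 4 * copiesOn H A C * (u * ℓ) ^ k ≤ n ^ k)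
    {C' : Finset (Fin n)} (hsub : C' ⊆ C)
    (hsep : ∀ c ∈ C', ∀ c' ∈ C', c ≠ c' → n ≤ u * ndist A c c') :
    C'.card ≤ (u * ℓ + 1) ^ dimH k := by
  set m := u * ℓ with hm
  have hnF : Nonempty (Fin n) := ⟨⟨0, hn⟩⟩
  set bad1 := univ.filter (fun R : Fin m → Fin n =>
    ∃ e ∈ colTuples k C, ∃ r : Fin k → Fin n,
      (StrictMono r ∧ ∀ i j, A (r i) (e j) = H i j) ∧ ∀ i, ∃ a, R a = r i) with hbad1
  set bad2 := univ.filter (fun R : Fin m → Fin n =>
    ∃ p ∈ C'.offDiag, ∀ a, A (R a) p.1 = A (R a) p.2) with hbad2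
  have h1 : bad1.card * 4 ≤ n ^ m := by
    have hsub1 : bad1 ⊆ (colTuples k C).biUnion (fun e =>
        (univ.filter (fun r : Fin k → Fin n => StrictMono r ∧ ∀ i j, A (r i) (e j) = H i j)).biUnion
          (fun r => univ.filter (fun R : Fin m → Fin n => ∀ i, ∃ a, R a = r i))) := by
      intro R hR
      obtain ⟨e, he, r, hr, hR'⟩ := (Finset.mem_filter.1 hR).2
      exact Finset.mem_biUnion.2 ⟨e, he, Finset.mem_biUnion.2
        ⟨r, Finset.mem_filter.2 ⟨mem_univ _, hr⟩, Finset.mem_filter.2 ⟨mem_univ _, hR'⟩⟩⟩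
    have h2 : bad1.card * n ^ k ≤ copiesOn H A C * (m ^ k * n ^ m) := by
      refine le_trans (Nat.mul_le_mul_right _ (le_trans (Finset.card_le_card hsub1)
        Finset.card_biUnion_le)) ?_
      rw [Finset.sum_mul, copiesOn, Finset.sum_mul]
      refine Finset.sum_le_sum (fun e _ => ?_)
      refine le_trans (Nat.mul_le_mul_right _ Finset.card_biUnion_le) ?_
      rw [Finset.sum_mul]
      refine le_trans (Finset.sum_le_card_nsmul _ _ (m ^ k * n ^ m) (fun r hr => ?_)) ?_
      · have h := card_hit (ι := Fin m) (α := Fin n) (fun _ x => x)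
          (fun _ => Function.injective_id) r (Finset.mem_filter.1 hr).2.1.injective
        simp only [Fintype.card_fin] at h
        refine le_trans (le_of_eq ?_) h
        congr 2
        ext R
        simp only [Finset.mem_filter, mem_univ, true_and]
      · rw [smul_eq_mul, rowCopies]
    have h3 : bad1.card * 4 * n ^ k ≤ n ^ m * n ^ k := by
      calc bad1.card * 4 * n ^ k = 4 * (bad1.card * n ^ k) := by ring
        _ ≤ 4 * (copiesOn H A C * (m ^ k * n ^ m)) := Nat.mul_le_mul_left _ h2
        _ = (4 * copiesOn H A C * m ^ k) * n ^ m := by ring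
        _ ≤ n ^ k * n ^ m := Nat.mul_le_mul_right _ hfew
        _ = _ := by ring
    exact Nat.le_of_mul_le_mul_right h3 (pow_pos hn k)
  have h2 : bad2.card * 4 ≤ n ^ m := by
    have hsub2 : bad2 ⊆ C'.offDiag.biUnion (fun p => Fintype.piFinset (fun _ : Fin m =>
        univ.filter (fun r => A r p.1 = A r p.2))) := by
      intro R hR
      obtain ⟨p, hp, hR'⟩ := (Finset.mem_filter.1 hR).2
      exact Finset.mem_biUnion.2 ⟨p, hp, Fintype.mem_piFinset.2
        (fun a => Finset.mem_filter.2 ⟨mem_univ _, hR' a⟩)⟩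
    have hone : ∀ p ∈ C'.offDiag, (Fintype.piFinset (fun _ : Fin m =>
        univ.filter (fun r => A r p.1 = A r p.2))).card * 2 ^ ℓ ≤ n ^ m := by
      intro p hp
      obtain ⟨hp1, hp2, hne⟩ := Finset.mem_offDiag.1 hp
      rw [Fintype.card_piFinset, Finset.prod_const, Finset.card_univ, Fintype.card_fin]
      set x := (univ.filter (fun r => A r p.1 = A r p.2)).card with hx
      have hxd : x + ndist A p.1 p.2 = n := by
        rw [hx, ndist, Finset.card_filter_add_card_filter_not]; simp
      have hd : x ≤ u * ndist A p.1 p.2 := by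
        have := hsep _ hp1 _ hp2 hne; omega
      have h := double_pow hd hu
      rw [hxd] at h
      calc x ^ m * 2 ^ ℓ = (2 * x ^ u) ^ ℓ := by rw [hm, pow_mul, mul_pow]; ring
        _ ≤ (n ^ u) ^ ℓ := Nat.pow_le_pow_left h ℓ
        _ = n ^ m := by rw [hm, pow_mul]
    have h3 : bad2.card * 2 ^ ℓ ≤ S ^ 2 * n ^ m := by
      refine le_trans (Nat.mul_le_mul_right _ (le_trans (Finset.card_le_card hsub2)
        Finset.card_biUnion_le)) ?_
      rw [Finset.sum_mul]
      refine le_trans (Finset.sum_le_card_nsmul _ _ _ hone) ?_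
      rw [smul_eq_mul]
      refine Nat.mul_le_mul_right _ ?_
      rw [Finset.offDiag_card, sq]
      exact le_trans (Nat.sub_le _ _) (Nat.mul_le_mul (le_trans (Finset.card_le_card hsub) hC)
        (le_trans (Finset.card_le_card hsub) hC))
    have h4 : bad2.card * 4 * 2 ^ ℓ ≤ n ^ m * 2 ^ ℓ := by
      calc bad2.card * 4 * 2 ^ ℓ = 4 * (bad2.card * 2 ^ ℓ) := by ring
        _ ≤ 4 * (S ^ 2 * n ^ m) := Nat.mul_le_mul_left _ h3
        _ = (4 * S ^ 2) * n ^ m := by ring
        _ ≤ 2 ^ ℓ * n ^ m := Nat.mul_le_mul_right _ hℓ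
        _ = _ := by ring
    exact Nat.le_of_mul_le_mul_right h4 (by positivity)
  obtain ⟨R, -, hR⟩ : ∃ R ∈ (univ : Finset (Fin m → Fin n)), R ∉ bad1 ∪ bad2 := by
    refine Finset.exists_mem_notMem_of_card_lt_card ?_
    have := Finset.card_union_le bad1 bad2
    have hpos : 0 < n ^ m := pow_pos hn m
    simp only [Finset.card_univ, Fintype.card_fun, Fintype.card_fin]
    omega
  simp only [Finset.mem_union, hbad1, hbad2, Finset.mem_filter, mem_univ, true_and, not_or,
    not_exists, not_and] at hR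
  obtain ⟨hR1, hR2⟩ := hR
  set RS := univ.image R with hRS
  have hfree : FreeOn H A RS C := by
    intro r c hr hc hcopy
    refine hR1 c (mem_colTuples.2 ⟨hcopy.2.1, hc⟩) r ⟨hcopy.1, hcopy.2.2⟩ (fun i => ?_)
    obtain ⟨a, -, ha⟩ := Finset.mem_image.1 (hr i)
    exact ⟨a, ha⟩
  have hcard := card_traces_le hk H A (hfree)
  have hinj : Set.InjOn (fun c => RS.filter (fun r => A r c)) (C' : Set (Fin n)) := by
    intro c hc c' hc' heq
    by_contra hne
    refine hR2 (c, c') (Finset.mem_offDiag.2 ⟨hc, hc', hne⟩) (fun a => ?_)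
    have hmem : R a ∈ RS := Finset.mem_image_of_mem _ (mem_univ a)
    have := Finset.ext_iff.1 heq (R a)
    simp only [Finset.mem_filter, hmem, true_and] at this
    exact Bool.eq_iff_iff.2 this
  calc C'.card = (C'.image (fun c => RS.filter (fun r => A r c))).card :=
        (Finset.card_image_of_injOn hinj).symm
    _ ≤ (C.image (fun c => RS.filter (fun r => A r c))).card :=
        Finset.card_le_card (Finset.image_subset_image hsub)
    _ ≤ (RS.card + 1) ^ dimH k := hcard
    _ ≤ (m + 1) ^ dimH k := by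
        refine Nat.pow_le_pow_left (Nat.add_le_add_right (le_trans Finset.card_image_le ?_) 1) _
        simp

open scoped Classical in
/-- A small set of columns approximating all but few columns. -/
theorem exists_net (hk : 1 ≤ k) (H : Fin k → Fin k → Bool) (A : Fin n → Fin n → Bool)
    {u ℓ m0 : ℕ} (hn : 0 < n) (hu : 1 ≤ u) (hℓ : 4 * (m0 + 1) ^ 2 ≤ 2 ^ ℓ)
    (hδ : 4 * (m0 + 1) ^ (k + 1) * (u * ℓ) ^ k * numCopies H A ≤ n ^ (2 * k)) :
    ∃ Z : Fin m0 → Fin n,
      (m0 + 1) * (univ.filter (fun c => ∀ i, n ≤ u * ndist A c (Z i))).card ≤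
        ((u * ℓ + 1) ^ dimH k + 1) * n := by
  have hnF : Nonempty (Fin n) := ⟨⟨0, hn⟩⟩
  set P := (u * ℓ + 1) ^ dimH k
  set M := m0 + 1 with hM
  set iso : (Fin M → Fin n) → Fin M → Prop :=
    fun Z i => ∀ j, j ≠ i → n ≤ u * ndist A (Z i) (Z j) with hiso
  set bad := univ.filter (fun Z : Fin M → Fin n =>
    n ^ k < 4 * copiesOn H A (univ.image Z) * (u * ℓ) ^ k) with hbad
  have hbadcard : bad.card * M ≤ n ^ M := by
    have h1 : bad.card * n ^ k ≤ ∑ Z ∈ bad, 4 * copiesOn H A (univ.image Z) * (u * ℓ) ^ k := by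
      have := Finset.card_nsmul_le_sum bad _ (n ^ k) (fun Z hZ => (Finset.mem_filter.1 hZ).2.le)
      simpa using this
    have h2 := sum_copiesOn (ι := Fin M) (α := Fin n) (fun _ x => x) (fun _ => Function.injective_id)
      H A
    simp only [Fintype.card_fin] at h2
    have h3 : bad.card * M * n ^ (2 * k) ≤ n ^ M * n ^ (2 * k) := by
      calc bad.card * M * n ^ (2 * k) = bad.card * n ^ k * (M * n ^ k) := by ring
        _ ≤ (∑ Z : Fin M → Fin n, 4 * copiesOn H A (univ.image Z) * (u * ℓ) ^ k) * (M * n ^ k) :=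
            Nat.mul_le_mul_right _ (h1.trans (Finset.sum_le_sum_of_subset (Finset.subset_univ _)))
        _ = 4 * (u * ℓ) ^ k * M * ((∑ Z : Fin M → Fin n, copiesOn H A (univ.image Z)) * n ^ k) := by
            rw [← Finset.sum_mul, ← Finset.mul_sum]; ring
        _ ≤ 4 * (u * ℓ) ^ k * M * (M ^ k * n ^ M * numCopies H A) := Nat.mul_le_mul_left _ h2
        _ = (4 * M ^ (k + 1) * (u * ℓ) ^ k * numCopies H A) * n ^ M := by ring
        _ ≤ n ^ (2 * k) * n ^ M := Nat.mul_le_mul_right _ hδ
        _ = _ := by ring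
    exact Nat.le_of_mul_le_mul_right h3 (pow_pos hn _)
  have hiso_le : ∀ Z, (univ.filter (iso Z)).card ≤ P + (if Z ∈ bad then M else 0) := by
    intro Z
    split_ifs with hZ
    · exact le_trans (le_trans (Finset.card_filter_le _ _) (by simp)) (Nat.le_add_left _ _)
    · simp only [hbad, Finset.mem_filter, mem_univ, true_and, not_lt] at hZ
      have hinj : Set.InjOn Z ((univ.filter (iso Z)) : Set (Fin M)) := by
        intro a ha b _ hab
        by_contra hne
        have := (Finset.mem_filter.1 ha).2 b (Ne.symm hne)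
        rw [hab, ndist_self] at this
        omega
      rw [← Finset.card_image_of_injOn hinj, add_zero]
      refine packing hk H A hn hu hℓ (le_trans Finset.card_image_le (by simp [hM])) hZ
        (Finset.image_subset_image (Finset.subset_univ _)) ?_
      intro c hc c' hc' hne
      obtain ⟨a, ha, rfl⟩ := Finset.mem_image.1 hc
      obtain ⟨b, -, rfl⟩ := Finset.mem_image.1 hc'
      exact (Finset.mem_filter.1 ha).2 b (fun h => hne (by rw [h]))
  have hsum : ∑ Z, (univ.filter (iso Z)).card ≤ (P + 1) * n ^ M := by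
    refine le_trans (Finset.sum_le_sum (fun Z _ => hiso_le Z)) ?_
    rw [Finset.sum_add_distrib, Finset.sum_const, ← Finset.sum_filter, Finset.sum_const]
    simp only [Finset.card_univ, Fintype.card_fun, Fintype.card_fin, smul_eq_mul,
      Finset.filter_mem_eq_inter, Finset.univ_inter]
    calc n ^ M * P + bad.card * M ≤ n ^ M * P + n ^ M := Nat.add_le_add_left hbadcard _
      _ = _ := by ring
  have hsym : ∀ i : Fin M, (univ.filter (fun Z => iso Z i)).card =
      (univ.filter (fun Z => iso Z (Fin.last m0))).card := by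
    intro i
    refine Finset.card_equiv ((Equiv.swap i (Fin.last m0)).arrowCongr (Equiv.refl _)) (fun Z => ?_)
    simp only [Finset.mem_filter, mem_univ, true_and, hiso, Equiv.arrowCongr_apply,
      Equiv.coe_refl, Function.comp_apply, id_eq, Equiv.symm_swap, Equiv.swap_apply_right]
    constructor
    · intro h j hj
      refine h _ (fun hh => hj ?_)
      rw [Equiv.swap_apply_eq_iff, Equiv.swap_apply_left] at hh
      exact hh
    · intro h j hj
      have := h (Equiv.swap i (Fin.last m0) j) (fun hh => hj ?_)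
      · rwa [Equiv.swap_apply_self] at this
      · rw [Equiv.swap_apply_eq_iff, Equiv.swap_apply_right] at hh
        exact hh
  have hlast : (univ.filter (fun Z => iso Z (Fin.last m0))).card =
      ∑ Z' : Fin m0 → Fin n, (univ.filter (fun c => ∀ i, n ≤ u * ndist A c (Z' i))).card := by
    rw [← Finset.card_sigma]
    refine Finset.card_bij' (fun Z _ => ⟨Fin.init Z, Z (Fin.last m0)⟩)
      (fun p _ => Fin.snoc p.1 p.2) ?_ ?_ ?_ ?_
    · intro Z hZ
      simp only [Finset.mem_sigma, Finset.mem_filter, mem_univ, true_and, hiso] at hZ ⊢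
      exact fun i => hZ i.castSucc (Fin.castSucc_lt_last i).ne
    · intro p hp
      simp only [Finset.mem_sigma, Finset.mem_filter, mem_univ, true_and, hiso] at hp ⊢
      intro j hj
      induction j using Fin.lastCases with
      | last => exact absurd rfl hj
      | cast j => simpa using hp j
    · intro Z _
      simp
    · intro p _
      simp
  have htot : M * ∑ Z' : Fin m0 → Fin n,
      (univ.filter (fun c => ∀ i, n ≤ u * ndist A c (Z' i))).card ≤ (P + 1) * n * n ^ m0 := by
    rw [← hlast]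
    have : ∑ Z, (univ.filter (iso Z)).card = M * (univ.filter (fun Z => iso Z (Fin.last m0))).card := by
      have h1 := Finset.sum_card_bipartiteAbove_eq_sum_card_bipartiteBelow (s := univ) (t := univ) iso
      simp only [Finset.bipartiteAbove, Finset.bipartiteBelow] at h1
      rw [h1, Finset.sum_congr rfl (fun i _ => hsym i), Finset.sum_const, Finset.card_univ,
        Fintype.card_fin, smul_eq_mul]
    rw [this, pow_succ] at hsum
    linarith
  rw [Finset.mul_sum] at htot
  have hsum2 : ∑ Z' : Fin m0 → Fin n,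
      M * (univ.filter (fun c => ∀ i, n ≤ u * ndist A c (Z' i))).card ≤
        ∑ _Z' : Fin m0 → Fin n, (P + 1) * n := by
    refine htot.trans (le_of_eq ?_)
    rw [Finset.sum_const, Finset.card_univ, Fintype.card_fun, Fintype.card_fin, Fintype.card_fin,
      smul_eq_mul, mul_comm]
  obtain ⟨Z', -, hZ'⟩ := Finset.exists_le_of_sum_le Finset.univ_nonempty hsum2
  exact ⟨Z', hZ'⟩

end Vale.Agent.P037
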