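import Mathlib
import Vale.Agent.P037.Packing
import Vale.Agent.P037.Levels

/-!
A sample of a few columns in every window that hits the frequent types and carries few copies.
-/

open Finset

namespace Vale.Agent.P037

/-- Slots: interval, window, sample number. -/
abbrev Slot (Q D s : ℕ) : Type := Fin Q × Fin D × Fin s

theorem slot_lt {n Q D s t : ℕ} (hfit : Q * D * t ≤ n) (a : Slot Q D s) (x : Fin t) :
    ((a.1 : ℕ) * D + a.2.1) * t + x < n := by
  have h1 : (a.1 : ℕ) * D + a.2.1 < Q * D := by
    calc (a.1 : ℕ) * D + a.2.1 < (a.1 : ℕ) * D + D := Nat.add_lt_add_left a.2.1.2 _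
      _ = ((a.1 : ℕ) + 1) * D := by ring
      _ ≤ Q * D := Nat.mul_le_mul_right _ a.1.2
  calc ((a.1 : ℕ) * D + a.2.1) * t + x < ((a.1 : ℕ) * D + a.2.1) * t + t :=
        Nat.add_lt_add_left x.2 _
    _ = ((a.1 : ℕ) * D + a.2.1 + 1) * t := by ring
    _ ≤ Q * D * t := Nat.mul_le_mul_right _ h1
    _ ≤ n := hfit

/-- The column in slot `a` at offset `x`. -/
def slotCol {n Q D s t : ℕ} (hfit : Q * D * t ≤ n) (a : Slot Q D s) (x : Fin t) : Fin n :=
  ⟨((a.1 : ℕ) * D + a.2.1) * t + x, slot_lt hfit a x⟩

/-- Extension of a typing of the columns to all naturals. -/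
def extType {n M : ℕ} (τ : Fin n → Fin M) (z : Fin M) (x : ℕ) : Fin M :=
  if h : x < n then τ ⟨x, h⟩ else z

theorem extType_val {n M : ℕ} (τ : Fin n → Fin M) (z : Fin M) (c : Fin n) :
    extType τ z (c : ℕ) = τ c := by
  simp [extType]

/-- Positions of an interval whose type is missed by the samples of a window. -/
def missSet {n M Q D s t : ℕ} (τ : Fin n → Fin M) (z : Fin M) (X : Slot Q D s → Fin t)
    (j : Fin Q) (w : Fin D) : Finset ℕ :=
  (range (D * t)).filter (fun x => ∀ i : Fin s,
    extType τ z (((j : ℕ) * D + w) * t + X (j, w, i)) ≠ extType τ z ((j : ℕ) * (D * t) + x))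

theorem card_fin_filter (t : ℕ) (P : ℕ → Prop) [DecidablePred P] :
    ((univ : Finset (Fin t)).filter (fun i : Fin t => P i.val)).card = ((range t).filter P).card := by
  refine Finset.card_bij (fun i _ => (i : ℕ)) ?_ ?_ ?_
  · intro i hi
    simp only [Finset.mem_filter, mem_univ, true_and, Finset.mem_range] at hi ⊢
    exact ⟨i.2, hi⟩
  · intro i _ j _ h
    exact Fin.ext h
  · intro b hb
    simp only [Finset.mem_filter, Finset.mem_range] at hb
    exact ⟨⟨b, hb.1⟩, by simpa using hb.2, rfl⟩

open scoped Classical in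
theorem sum_missSet {n M Q D s t : ℕ} (τ : Fin n → Fin M) (z : Fin M) (j : Fin Q) (w : Fin D)
    (ht : 1 ≤ t) :
    (∑ X : Slot Q D s → Fin t, (missSet τ z X j w).card) * s ≤
      t ^ Fintype.card (Slot Q D s) * ∑ x : Fin M,
        (s * Nat.dist (blockCnt (extType τ z) (D * t) j x)
          (D * blockCnt (extType τ z) t ((j : ℕ) * D + w) x) + D * t) := by
  set T : Finset (Slot Q D s) := (univ : Finset (Fin s)).image (fun i => (j, w, i)) with hT
  have hTcard : T.card = s := by
    rw [hT, Finset.card_image_of_injective _ (fun a b h => by simpa using h)]; simp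
  set N : ℕ := Fintype.card (Slot Q D s) with hN
  set avoid : Fin M → ℕ := fun x => (univ.filter (fun X : Slot Q D s → Fin t =>
    ∀ i : Fin s, extType τ z (((j : ℕ) * D + w) * t + X (j, w, i)) ≠ x)).card with havoid
  have e1 : ∑ X : Slot Q D s → Fin t, (missSet τ z X j w).card =
      ∑ x : Fin M, blockCnt (extType τ z) (D * t) j x * avoid x := by
    simp only [missSet, Finset.card_filter]
    rw [Finset.sum_comm]
    rw [← Finset.sum_fiberwise (range (D * t)) (fun i => extType τ z ((j : ℕ) * (D * t) + i))]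
    refine Finset.sum_congr rfl (fun x _ => ?_)
    rw [blockCnt, Finset.card_eq_sum_ones, Finset.sum_mul]
    refine Finset.sum_congr rfl (fun i hi => ?_)
    rw [one_mul, (Finset.mem_filter.1 hi).2, havoid]
    simp only [Finset.card_filter]
  have e2 : ∀ x, avoid x * t ^ s =
      (t - blockCnt (extType τ z) t ((j : ℕ) * D + w) x) ^ s * t ^ N := by
    intro x
    set S : Slot Q D s → Finset (Fin t) := fun _ =>
      univ.filter (fun y : Fin t => extType τ z (((j : ℕ) * D + w) * t + y) ≠ x) with hS
    have h := card_pi_constraint (α := Fin t) T S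
    have hS' : ∀ a, (S a).card = t - blockCnt (extType τ z) t ((j : ℕ) * D + w) x := by
      intro a
      rw [blockCnt, ← card_fin_filter t (fun y => extType τ z (((j : ℕ) * D + w) * t + y) = x), hS]
      have := Finset.card_filter_add_card_filter_not (s := (univ : Finset (Fin t)))
        (fun y : Fin t => extType τ z (((j : ℕ) * D + w) * t + y) = x)
      simp only [Finset.card_univ, Fintype.card_fin] at this
      simp only [ne_eq]
      omega
    rw [Finset.prod_congr rfl (fun a _ => hS' a), Finset.prod_const, hTcard, Fintype.card_fin] at h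
    rw [← h, havoid]
    refine congrArg (fun z : ℕ => z * t ^ s) (congrArg Finset.card ?_)
    ext X
    simp only [Finset.mem_filter, mem_univ, true_and, hT, Finset.mem_image, hS,
      forall_exists_index, forall_apply_eq_imp_iff]
  refine Nat.le_of_mul_le_mul_right ?_ (pow_pos ht s)
  rw [e1, Finset.sum_mul, Finset.sum_mul, Finset.mul_sum, Finset.sum_mul]
  refine Finset.sum_le_sum (fun x _ => ?_)
  set NI := blockCnt (extType τ z) (D * t) j x
  set Nw := blockCnt (extType τ z) t ((j : ℕ) * D + w) x
  have hNw : Nw ≤ t := le_trans (Finset.card_filter_le _ _) (by simp)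
  have h1 : NI ≤ Nat.dist NI (D * Nw) + D * Nw := by
    rcases le_total NI (D * Nw) with h | h
    · omega
    · rw [Nat.dist_eq_sub_of_le_right h]; omega
  have h2 : s * Nw * (t - Nw) ^ s ≤ t ^ s * t := by
    have := mul_pow_le (t - Nw) Nw s
    rwa [Nat.sub_add_cancel hNw] at this
  have h3 : (t - Nw) ^ s ≤ t ^ s := Nat.pow_le_pow_left (Nat.sub_le _ _) _
  calc NI * avoid x * s * t ^ s = NI * s * (avoid x * t ^ s) := by ring
    _ = (NI * s * (t - Nw) ^ s) * t ^ N := by rw [e2]; ring
    _ ≤ ((s * Nat.dist NI (D * Nw) + D * t) * t ^ s) * t ^ N := by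
        refine Nat.mul_le_mul_right _ ?_
        calc NI * s * (t - Nw) ^ s ≤ (Nat.dist NI (D * Nw) + D * Nw) * s * (t - Nw) ^ s := by
              gcongr
          _ = s * Nat.dist NI (D * Nw) * (t - Nw) ^ s + D * (s * Nw * (t - Nw) ^ s) := by ring
          _ ≤ s * Nat.dist NI (D * Nw) * t ^ s + D * (t ^ s * t) :=
              Nat.add_le_add (Nat.mul_le_mul_left _ h3) (Nat.mul_le_mul_left _ h2)
          _ = _ := by ring
    _ = _ := by ring

open scoped Classical in
/-- A good sample exists. -/
theorem exists_sample {n k M Q D s t e : ℕ} (H : Fin k → Fin k → Bool) (A : Fin n → Fin n → Bool)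
    (τ : Fin n → Fin M) (z : Fin M) (hfit : Q * D * t ≤ n) (ht : 1 ≤ t) (hs1 : 1 ≤ s)
    (hs : s = 80 * e * M) (hdrift : 80 * e * drift (extType τ z) Q D t ≤ D * (Q * D * t)) :
    ∃ X : Slot Q D s → Fin t,
      copiesOn H A (univ.image (fun a => slotCol hfit a (X a))) * t ^ k ≤
        2 * ((Q * D * s) ^ k * numCopies H A) ∧
      20 * e * ∑ j, ∑ w, (missSet τ z X j w).card ≤ D * (Q * D * t) := by
  have : Nonempty (Fin t) := ⟨⟨0, ht⟩⟩
  have hcard : Fintype.card (Slot Q D s) = Q * D * s := by simp [Slot, mul_assoc]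
  have hΩ : Fintype.card (Slot Q D s → Fin t) = t ^ Fintype.card (Slot Q D s) := by simp
  have hinj : ∀ a : Slot Q D s, Function.Injective (slotCol hfit a (t := t)) := by
    intro a x y h
    simp only [slotCol, Fin.mk.injEq] at h
    exact Fin.ext (by omega)
  have hf : ∑ X : Slot Q D s → Fin t, copiesOn H A (univ.image (fun a => slotCol hfit a (X a))) * t ^ k ≤
      ((Q * D * s) ^ k * numCopies H A) * Fintype.card (Slot Q D s → Fin t) := by
    have h := sum_copiesOn (slotCol hfit (t := t)) hinj H A
    rw [Fintype.card_fin, hcard] at h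
    rw [hΩ, hcard, ← Finset.sum_mul]
    calc _ ≤ (Q * D * s) ^ k * t ^ (Q * D * s) * numCopies H A := h
      _ = _ := by ring
  set P := t ^ Fintype.card (Slot Q D s) with hP
  have hg : ∑ X : Slot Q D s → Fin t, 40 * e * (∑ j, ∑ w, (missSet τ z X j w).card) ≤
      D * (Q * D * t) * Fintype.card (Slot Q D s → Fin t) := by
    rw [hΩ]
    refine Nat.le_of_mul_le_mul_right (c := 2 * s) ?_ (show 0 < 2 * s by omega)
    set dr := drift (extType τ z) Q D t with hdr
    calc (∑ X : Slot Q D s → Fin t, 40 * e * (∑ j, ∑ w, (missSet τ z X j w).card)) * (2 * s)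
        = 80 * e * ∑ j, ∑ w, (∑ X : Slot Q D s → Fin t, (missSet τ z X j w).card) * s := by
          rw [← Finset.mul_sum, Finset.sum_comm]
          simp only [Finset.sum_comm (s := (univ : Finset (Slot Q D s → Fin t))), ← Finset.sum_mul]
          ring
      _ ≤ 80 * e * ∑ j : Fin Q, ∑ w : Fin D, P * ∑ x : Fin M,
          (s * Nat.dist (blockCnt (extType τ z) (D * t) j x)
            (D * blockCnt (extType τ z) t ((j : ℕ) * D + w) x) + D * t) :=
          Nat.mul_le_mul_left _ (Finset.sum_le_sum (fun j _ => Finset.sum_le_sum (fun w _ =>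
            sum_missSet τ z j w ht)))
      _ = 80 * e * (P * (s * dr + Q * D * M * (D * t))) := by
          congr 1
          rw [hdr, drift, ← Fin.sum_univ_eq_sum_range
            (fun j => ∑ w ∈ range D, ∑ x : Fin M, Nat.dist (blockCnt (extType τ z) (D * t) j x)
              (D * blockCnt (extType τ z) t (j * D + w) x)) Q]
          simp only [← Fin.sum_univ_eq_sum_range (n := D)]
          simp only [← Finset.mul_sum, Finset.sum_add_distrib, Finset.sum_const, Finset.card_univ,
            Fintype.card_fin, smul_eq_mul]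
          ring
      _ = P * (s * (80 * e * dr) + (80 * e * M) * (D * (Q * D * t))) := by ring
      _ ≤ P * (s * (D * (Q * D * t)) + (80 * e * M) * (D * (Q * D * t))) :=
          Nat.mul_le_mul_left _ (Nat.add_le_add_right (Nat.mul_le_mul_left _ hdrift) _)
      _ = D * (Q * D * t) * P * (2 * s) := by rw [← hs]; ring
  obtain ⟨X, h1, h2⟩ := exists_le_pair _ _ hf hg
  exact ⟨X, h1, by linarith⟩

end Vale.Agent.P037
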