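import Mathlib
import Vale.Agent.P037.Sample
import Vale.Agent.P037.Clean

/-!
A good sample gives an exactly free matrix close to the given one.
-/

open Finset

namespace Vale.Agent.P037

open scoped Classical in
theorem exists_retraction {n : ℕ} (K : Finset (Fin n)) (hK : K.Nonempty) :
    ∃ φ : Fin n → Fin n, Monotone φ ∧ (∀ r, φ r ∈ K) ∧ ∀ r ∈ K, φ r = r := by
  refine ⟨fun r => if h : (K.filter (· ≤ r)).Nonempty then (K.filter (· ≤ r)).max' h else K.min' hK,
    ?_, ?_, ?_⟩
  · intro a b hab
    have hsub : K.filter (· ≤ a) ⊆ K.filter (· ≤ b) := fun x hx => by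
      rw [Finset.mem_filter] at hx ⊢
      exact ⟨hx.1, hx.2.trans hab⟩
    simp only
    split_ifs with ha hb hb
    · exact Finset.max'_subset ha hsub
    · exact absurd (ha.mono hsub) hb
    · exact Finset.min'_le _ _ (Finset.mem_filter.1 (Finset.max'_mem _ hb)).1
    · exact le_rfl
  · intro r
    simp only
    split_ifs with h
    · exact (Finset.mem_filter.1 (Finset.max'_mem _ h)).1
    · exact Finset.min'_mem _ _
  · intro r hr
    have hmem : r ∈ K.filter (· ≤ r) := Finset.mem_filter.2 ⟨hr, le_rfl⟩
    simp only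
    have hne : (K.filter (· ≤ r)).Nonempty := ⟨r, hmem⟩
    rw [dif_pos hne]
    exact le_antisymm (Finset.mem_filter.1 (Finset.max'_mem (K.filter (· ≤ r)) hne)).2
      (Finset.le_max' _ _ hmem)

open scoped Classical in
theorem entryDiff_le {n : ℕ} (A : Fin n → Fin n → Bool) (K : Finset (Fin n)) (φ : Fin n → Fin n)
    (hφ : ∀ r ∈ K, φ r = r) (σ : Fin n → Fin n) :
    entryDiff A (fun r c => A (φ r) (σ c)) ≤ Kᶜ.card * n + ∑ c, ndist A c (σ c) := by
  unfold entryDiff ndist
  have hsub : (univ.filter (fun p : Fin n × Fin n => A p.1 p.2 ≠ A (φ p.1) (σ p.2))) ⊆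
      (Kᶜ ×ˢ univ) ∪ (univ.filter (fun p : Fin n × Fin n => A p.1 p.2 ≠ A p.1 (σ p.2))) := by
    intro p hp
    simp only [Finset.mem_filter, mem_univ, true_and] at hp
    simp only [Finset.mem_union, Finset.mem_product, Finset.mem_compl, Finset.mem_filter, mem_univ,
      true_and, and_true]
    by_cases h : p.1 ∈ K
    · exact Or.inr (by rwa [hφ _ h] at hp)
    · exact Or.inl h
  refine le_trans (Finset.card_le_card hsub) (le_trans (Finset.card_union_le _ _) ?_)
  refine Nat.add_le_add (le_of_eq (by simp)) (le_of_eq ?_)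
  simp only [Finset.card_filter]
  rw [Fintype.sum_prod_type_right]

open scoped Classical in
/-- The rounding. -/
theorem exists_free_close {n k M Q D s t e ℓ u mr : ℕ} (hk : 1 ≤ k)
    (H : Fin k → Fin k → Bool) (A : Fin n → Fin n → Bool) (τ : Fin n → Fin M) (z : Fin M)
    (hn : 0 < n) (he : 1 ≤ e) (hQ : 1 ≤ Q) (hD : 1 ≤ D) (ht : 1 ≤ t) (hfit : Q * D * t ≤ n)
    (hrem : 10 * e * (n - Q * D * t) ≤ n)
    (hτ : ∀ c c', τ c = τ c' → τ c ≠ z → 20 * e * ndist A c c' ≤ 2 * n)
    (hU : 10 * e * (univ.filter (fun c => τ c = z)).card ≤ n)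
    (hs1 : 1 ≤ s) (hu : u = 40 * e * Q * s ^ k * k) (hℓ : 4 * (Q * D * s) ^ 2 ≤ 2 ^ ℓ)
    (hbad : 2 * (k * ((u * ℓ + 1) ^ dimH k) ^ k) ≤ D)
    (X : Slot Q D s → Fin t)
    (hpack : 4 * copiesOn H A (univ.image (fun a => slotCol hfit a (X a))) * (u * ℓ) ^ k ≤ n ^ k)
    (hrare : copiesOn H A (univ.image (fun a => slotCol hfit a (X a))) < mr ^ k)
    (hmr : 20 * e * k * (Q * D * s) ^ k * mr ≤ n)
    (hmiss : 20 * e * ∑ j, ∑ w, (missSet τ z X j w).card ≤ D * (Q * D * t)) :
    ∃ B, IsFree H B ∧ 2 * e * entryDiff A B ≤ n ^ 2 := by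
  set col : Fin Q → Fin D → Fin s → Fin n := fun j w i => slotCol hfit (j, w, i) (X (j, w, i))
    with hcol
  set C := univ.image (fun a => slotCol hfit a (X a)) with hC
  have hcolC : ∀ j w i, col j w i ∈ C := fun j w i =>
    Finset.mem_image.2 ⟨(j, w, i), mem_univ _, rfl⟩
  have hCcard : C.card ≤ Q * D * s := le_trans Finset.card_image_le (by simp [Slot, mul_assoc])
  have hu1 : 1 ≤ u := by
    rw [hu]
    have : 0 < 40 * e * Q * s ^ k * k := by positivity
    omega
  set P := (u * ℓ + 1) ^ dimH k with hP
  -- nets inside the intervals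
  have hnet : ∀ j, ∃ (sep : Finset (Fin n)) (π : Fin n → Fin n), sep.card ≤ P ∧
      ∀ w i, π (col j w i) ∈ sep ∧ u * ndist A (col j w i) (π (col j w i)) < n := by
    intro j
    set Cj := univ.image (fun p : Fin D × Fin s => col j p.1 p.2) with hCj
    set fam := Cj.powerset.filter
      (fun T => ∀ c ∈ T, ∀ c' ∈ T, c ≠ c' → n ≤ u * ndist A c c') with hfam
    obtain ⟨sep, hsep, hmax⟩ := Finset.exists_max_image fam Finset.card
      ⟨∅, by simp [hfam]⟩
    obtain ⟨hsub, hsep'⟩ := Finset.mem_filter.1 hsep
    rw [Finset.mem_powerset] at hsub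
    have hnear : ∀ c ∈ Cj, ∃ c' ∈ sep, u * ndist A c c' < n := by
      intro c hc
      by_contra hcon
      push Not at hcon
      have hcs : c ∉ sep := by
        intro h
        have := hcon c h
        rw [ndist_self] at this
        omega
      have hins : insert c sep ∈ fam := by
        refine Finset.mem_filter.2 ⟨Finset.mem_powerset.2 (Finset.insert_subset hc hsub), ?_⟩
        intro a ha b hb hab
        rw [Finset.mem_insert] at ha hb
        rcases ha with rfl | ha <;> rcases hb with rfl | hb
        · exact absurd rfl hab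
        · exact hcon b hb
        · rw [ndist_comm]; exact hcon a ha
        · exact hsep' a ha b hb hab
      have := hmax _ hins
      rw [Finset.card_insert_of_notMem hcs] at this
      omega
    choose g hg1 hg2 using hnear
    refine ⟨sep, fun c => if h : c ∈ Cj then g c h else c, ?_, fun w i => ?_⟩
    · refine packing hk H A hn hu1 hℓ hCcard hpack (fun c hc => ?_) hsep'
      obtain ⟨p, -, rfl⟩ := Finset.mem_image.1 (hsub hc)
      exact hcolC _ _ _
    · have hmem : col j w i ∈ Cj := Finset.mem_image.2 ⟨(w, i), mem_univ _, rfl⟩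
      simp only [dif_pos hmem]
      exact ⟨hg1 _ hmem, hg2 _ hmem⟩
  choose sep π hsepcard hπ using hnet
  -- good windows
  set Wset : Fin Q → (Fin k → Fin n) → Finset (Fin D) := fun j key =>
    univ.filter (fun w => ∀ i, ∃ i', π j (col j w i') = key i) with hWset
  set good : Fin Q → Finset (Fin D) := fun j =>
    univ.filter (fun w => ∀ g : Fin k → Fin s, k ≤ (Wset j (fun i => π j (col j w (g i)))).card)
    with hgood
  have hgoodcard : ∀ j, D ≤ 2 * (good j).card := by
    intro j
    have hsub : (univ : Finset (Fin D)) \ good j ⊆ ((Fintype.piFinset (fun _ : Fin k => sep j)).filter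
        (fun key => (Wset j key).card ≤ k)).biUnion (Wset j) := by
      intro w hw
      simp only [hgood, Finset.mem_sdiff, mem_univ, true_and, Finset.mem_filter, not_forall,
        not_le] at hw
      obtain ⟨g, hg⟩ := hw
      refine Finset.mem_biUnion.2 ⟨fun i => π j (col j w (g i)), Finset.mem_filter.2
        ⟨Fintype.mem_piFinset.2 (fun i => (hπ j w (g i)).1), hg.le⟩, ?_⟩
      exact Finset.mem_filter.2 ⟨mem_univ _, fun i => ⟨g i, rfl⟩⟩
    have h1 : ((univ : Finset (Fin D)) \ good j).card ≤ P ^ k * k := by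
      refine le_trans (Finset.card_le_card hsub) (le_trans (Finset.card_biUnion_le_card_mul _ _ k
        (fun key hkey => (Finset.mem_filter.1 hkey).2)) (Nat.mul_le_mul_right _ ?_))
      refine le_trans (Finset.card_filter_le _ _) ?_
      rw [Fintype.card_piFinset, Finset.prod_const, Finset.card_univ, Fintype.card_fin]
      exact Nat.pow_le_pow_left (hsepcard j) _
    rw [Finset.card_sdiff_of_subset (Finset.subset_univ _), Finset.card_univ, Fintype.card_fin] at h1
    have h2 : (good j).card ≤ D := le_trans (Finset.card_le_univ _) (by simp)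
    have h3 : k * P ^ k = P ^ k * k := mul_comm _ _
    omega
  have hsel : ∀ j, ∃ w ∈ good j,
      D * (missSet τ z X j w).card ≤ 2 * ∑ w', (missSet τ z X j w').card := by
    intro j
    refine Finset.exists_le_of_sum_le (Finset.card_pos.1 ?_) ?_
    · have := hgoodcard j; omega
    · rw [← Finset.mul_sum, Finset.sum_const, smul_eq_mul]
      calc D * ∑ w ∈ good j, (missSet τ z X j w).card
          ≤ (2 * (good j).card) * ∑ w', (missSet τ z X j w').card :=
            Nat.mul_le_mul (hgoodcard j) (Finset.sum_le_sum_of_subset (Finset.subset_univ _))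
        _ = _ := by ring
  choose ws hws hwsmiss using hsel
  -- witnesses
  have hwit : ∀ j (g : Fin k → Fin s), ∃ (W : Fin k → Fin D) (I : Fin k → Fin s), StrictMono W ∧
      ∀ i, u * ndist A (col j (ws j) (g i)) (col j (W i) (I i)) < 2 * n := by
    intro j g
    set key := fun i => π j (col j (ws j) (g i)) with hkey
    obtain ⟨T, hT, hTk⟩ := Finset.exists_subset_card_eq ((Finset.mem_filter.1 (hws j)).2 g)
    have hW : ∀ i, ∃ i', π j (col j (T.orderEmbOfFin hTk i) i') = key i := fun i =>
      (Finset.mem_filter.1 (hT (Finset.orderEmbOfFin_mem T hTk i))).2 i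
    choose I hI using hW
    refine ⟨T.orderEmbOfFin hTk, I, (T.orderEmbOfFin hTk).strictMono, fun i => ?_⟩
    have h1 := (hπ j (ws j) (g i)).2
    have h2 := (hπ j (T.orderEmbOfFin hTk i) (I i)).2
    rw [hI i, ndist_comm] at h2
    have h3 := ndist_triangle A (col j (ws j) (g i)) (key i) (col j (T.orderEmbOfFin hTk i) (I i))
    have h4 := Nat.mul_le_mul_left u h3
    simp only [hkey] at h1 h2 h4 ⊢
    linarith
  choose W I hW hwit using hwit
  set wit : Fin Q → (Fin k → Fin s) → Fin k → Fin n := fun j g i => col j (W j g i) (I j g i)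
  -- cleaning
  have hclean : ∀ ce : Fin k → Fin n, ∃ Xc : Finset (Fin n), ce ∈ colTuples k C →
      Xc.card ≤ k * mr ∧ ∀ r : Fin k → Fin n, Monotone r →
        (∀ i j, A (r i) (ce j) = H i j) → ∃ i, r i ∈ Xc := by
    intro ce
    by_cases hce : ce ∈ colTuples k C
    · have hlt : rowCopies H A ce < mr ^ k := lt_of_le_of_lt
        (Finset.single_le_sum (f := rowCopies H A) (fun _ _ => Nat.zero_le _) hce) hrare
      obtain ⟨Xc, h1, h2⟩ := clean (fun r => fun j => A r (ce j)) (fun i j => H i j) mr (by
        refine lt_of_le_of_lt (le_of_eq ?_) hlt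
        rw [rowCopies]
        congr 1
        ext r
        simp [funext_iff])
      exact ⟨Xc, fun _ => ⟨h1, fun r hr hrw => h2 r hr (fun i => funext (hrw i))⟩⟩
    · exact ⟨∅, fun h => absurd h hce⟩
  choose Xc hXc using hclean
  set Xw := (univ : Finset (Fin Q × (Fin k → Fin s) × Fin k)).biUnion (fun p =>
    univ.filter (fun r => A r (col p.1 (ws p.1) (p.2.1 p.2.2)) ≠ A r (wit p.1 p.2.1 p.2.2))) with hXw
  set del := Xw ∪ (colTuples k C).biUnion Xc with hdel
  have hXw_card : 20 * e * Xw.card ≤ n := by
    have h1 : u * Xw.card ≤ Fintype.card (Fin Q × (Fin k → Fin s) × Fin k) * (2 * n) := by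
      refine le_trans (Nat.mul_le_mul_left _ Finset.card_biUnion_le) ?_
      rw [Finset.mul_sum]
      exact le_trans (Finset.sum_le_card_nsmul _ _ (2 * n)
        (fun p _ => (hwit p.1 p.2.1 p.2.2).le)) (by simp)
    simp only [Fintype.card_prod, Fintype.card_fun, Fintype.card_fin] at h1
    rw [hu] at h1
    refine Nat.le_of_mul_le_mul_right (c := 2 * (Q * s ^ k * k)) ?_ (by positivity)
    calc 20 * e * Xw.card * (2 * (Q * s ^ k * k)) = 40 * e * Q * s ^ k * k * Xw.card := by ring
      _ ≤ Q * (s ^ k * k) * (2 * n) := h1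
      _ = _ := by ring
  have hXc_card : 20 * e * ((colTuples k C).biUnion Xc).card ≤ n := by
    have h1 : ((colTuples k C).biUnion Xc).card ≤ (Q * D * s) ^ k * (k * mr) := by
      refine le_trans (Finset.card_biUnion_le_card_mul _ _ (k * mr) (fun ce hce => (hXc ce hce).1))
        (Nat.mul_le_mul_right _ ?_)
      refine le_trans (Finset.card_le_card (t := Fintype.piFinset (fun _ : Fin k => C)) ?_) ?_
      · intro ce hce
        exact Fintype.mem_piFinset.2 (mem_colTuples.1 hce).2
      · rw [Fintype.card_piFinset, Finset.prod_const, Finset.card_univ, Fintype.card_fin]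
        exact Nat.pow_le_pow_left hCcard _
    refine le_trans (Nat.mul_le_mul_left _ h1) (le_trans (le_of_eq (by ring)) hmr)
  have hdel_card : 10 * e * del.card ≤ n := by
    have := Nat.mul_le_mul_left (20 * e) (Finset.card_union_le Xw ((colTuples k C).biUnion Xc))
    rw [← hdel] at this
    linarith
  have hkeep : delᶜ.Nonempty := by
    rw [← Finset.card_pos, Finset.card_compl, Fintype.card_fin]
    have : del.card * 2 ≤ del.card * (10 * e) := Nat.mul_le_mul_left _ (by omega)
    rw [mul_comm (10 * e)] at hdel_card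
    omega
  obtain ⟨φ, hφmono, hφK, hφid⟩ := exists_retraction delᶜ hkeep
  -- the column map
  set J : Fin n → Fin Q := fun c => ⟨min ((c : ℕ) / (D * t)) (Q - 1), by omega⟩ with hJ
  have hJmono : Monotone J := fun a b hab => by
    simp only [hJ, Fin.mk_le_mk]
    exact min_le_min (Nat.div_le_div_right hab) le_rfl
  have : Nonempty (Fin s) := ⟨⟨0, hs1⟩⟩
  set gs : Fin n → Fin s := fun c =>
    if h : ∃ i, τ (col (J c) (ws (J c)) i) = τ c then h.choose else Classical.arbitrary _ with hgs
  set σ : Fin n → Fin n := fun c => col (J c) (ws (J c)) (gs c) with hσ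
  refine ⟨fun r c => A (φ r) (σ c), ?_, ?_⟩
  · rintro ⟨r, c⟩ ⟨hr, hc, hval⟩
    simp only at hr hc hval
    set g := fun b => gs (c b) with hg
    set ce : Fin k → Fin n := fun b => wit (J (c b)) g b with hce
    have hce_mono : StrictMono ce := by
      intro a b hab
      have hj : J (c a) ≤ J (c b) := hJmono (hc hab).le
      have hw2 : (W (J (c a)) g a : ℕ) < D := (W _ g a).2
      simp only [hce, wit, hcol, slotCol, Fin.lt_def]
      have hkey : (J (c a) : ℕ) * D + W (J (c a)) g a + 1 ≤ (J (c b) : ℕ) * D + W (J (c b)) g b := by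
        rcases hj.lt_or_eq with h | h
        · have : ((J (c a) : ℕ) + 1) * D ≤ (J (c b) : ℕ) * D := Nat.mul_le_mul_right _ h
          linarith
        · rw [h]
          have := hW (J (c b)) g hab
          rw [Fin.lt_def] at this
          omega
      have := Nat.mul_le_mul_right t hkey
      have := (X (J (c a), W (J (c a)) g a, I (J (c a)) g a)).2
      linarith
    have hmem : ce ∈ colTuples k C := mem_colTuples.2 ⟨hce_mono, fun b => hcolC _ _ _⟩
    obtain ⟨i, hi⟩ := (hXc ce hmem).2 (φ ∘ r) (hφmono.comp hr.monotone) (fun i b => by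
      rw [← hval i b]
      have hnot : φ (r i) ∉ del := Finset.mem_compl.1 (hφK _)
      by_contra hne
      refine hnot (Finset.mem_union_left _ (Finset.mem_biUnion.2 ⟨(J (c b), g, b), mem_univ _, ?_⟩))
      exact Finset.mem_filter.2 ⟨mem_univ _, fun h => hne h.symm⟩)
    exact Finset.mem_compl.1 (hφK (r i))
      (Finset.mem_union_right _ (Finset.mem_biUnion.2 ⟨ce, hmem, hi⟩))
  · set badc := univ.filter (fun c => τ c = z ∨ ¬ ∃ i, τ (col (J c) (ws (J c)) i) = τ c) with hbadc
    have hnear : ∀ c, 20 * e * ndist A c (σ c) ≤ 2 * n + (if c ∈ badc then 20 * e * n else 0) := by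
      intro c
      split_ifs with hb
      · exact le_trans (Nat.mul_le_mul_left _ (ndist_le A _ _)) (Nat.le_add_left _ _)
      · simp only [hbadc, Finset.mem_filter, mem_univ, true_and, not_or, not_not] at hb
        rw [add_zero]
        refine hτ c (σ c) ?_ hb.1
        rw [hσ, hgs]
        simp only [dif_pos hb.2]
        exact hb.2.choose_spec.symm
    set far := univ.filter (fun c : Fin n => Q * D * t ≤ (c : ℕ)) with hfar
    set missed := univ.filter (fun c : Fin n =>
      (c : ℕ) < Q * D * t ∧ ¬ ∃ i, τ (col (J c) (ws (J c)) i) = τ c) with hmissed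
    have hsub : badc ⊆ (univ.filter (fun c => τ c = z) ∪ far) ∪ missed := by
      intro c hc
      simp only [hbadc, Finset.mem_filter, mem_univ, true_and] at hc
      simp only [hfar, hmissed, Finset.mem_union, Finset.mem_filter, mem_univ, true_and]
      rcases hc with h | h
      · exact Or.inl (Or.inl h)
      · rcases Nat.lt_or_ge (c : ℕ) (Q * D * t) with h' | h'
        · exact Or.inr ⟨h', h⟩
        · exact Or.inl (Or.inr h')
    have hfarcard : far.card ≤ n - Q * D * t := by
      refine le_trans (Finset.card_le_card_of_injOn (fun c : Fin n => (c : ℕ) - Q * D * t)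
        (t := range (n - Q * D * t)) ?_ ?_) (by simp)
      · intro c hc
        simp only [hfar, Finset.coe_filter, Set.mem_setOf_eq, mem_univ, true_and] at hc
        simp only [Finset.coe_range, Set.mem_Iio]
        have := c.2
        omega
      · intro a ha b hb hab
        simp only [hfar, Finset.coe_filter, Set.mem_setOf_eq, mem_univ, true_and] at ha hb
        exact Fin.ext (by simp only at hab; omega)
    have hmissedcard : 10 * e * missed.card ≤ n := by
      have h1 : missed.card ≤ ∑ j, (missSet τ z X j (ws j)).card := by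
        rw [← Finset.card_sigma]
        refine Finset.card_le_card_of_injOn (fun c : Fin n => ⟨J c, (c : ℕ) % (D * t)⟩) ?_ ?_
        · intro c hc
          simp only [hmissed, Finset.coe_filter, Set.mem_setOf_eq, mem_univ, true_and] at hc
          simp only [Finset.coe_sigma, Set.mem_sigma_iff, Finset.coe_univ, Set.mem_univ, true_and,
            Finset.mem_coe, missSet, Finset.mem_filter, Finset.mem_range]
          have hdiv : (c : ℕ) / (D * t) < Q := by
            rw [Nat.div_lt_iff_lt_mul (by positivity), ← mul_assoc]; exact hc.1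
          refine ⟨Nat.mod_lt _ (by positivity), fun i hcon => hc.2 ⟨i, ?_⟩⟩
          have e1 : (J c : ℕ) * (D * t) + (c : ℕ) % (D * t) = c := by
            simp only [hJ, min_eq_left (show (c : ℕ) / (D * t) ≤ Q - 1 by omega)]
            rw [mul_comm]; exact Nat.div_add_mod _ _
          rw [e1, extType_val] at hcon
          rw [← hcon, ← extType_val τ z (col (J c) (ws (J c)) i)]
          rfl
        · intro a ha b hb hab
          simp only [hmissed, Finset.coe_filter, Set.mem_setOf_eq, mem_univ, true_and] at ha hb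
          simp only [Sigma.mk.injEq, heq_eq_eq, hJ, Fin.mk.injEq] at hab
          have h1 : (a : ℕ) / (D * t) < Q := by
            rw [Nat.div_lt_iff_lt_mul (by positivity), ← mul_assoc]; exact ha.1
          have h2 : (b : ℕ) / (D * t) < Q := by
            rw [Nat.div_lt_iff_lt_mul (by positivity), ← mul_assoc]; exact hb.1
          rw [min_eq_left (by omega), min_eq_left (by omega)] at hab
          refine Fin.ext ?_
          rw [← Nat.div_add_mod (a : ℕ) (D * t), ← Nat.div_add_mod (b : ℕ) (D * t), hab.1, hab.2]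
      refine Nat.le_of_mul_le_mul_right (c := D) ?_ hD
      calc 10 * e * missed.card * D ≤ 10 * e * (∑ j, (missSet τ z X j (ws j)).card) * D :=
            Nat.mul_le_mul_right _ (Nat.mul_le_mul_left _ h1)
        _ = 10 * e * ∑ j, D * (missSet τ z X j (ws j)).card := by rw [← Finset.mul_sum]; ring
        _ ≤ 10 * e * ∑ j, 2 * ∑ w, (missSet τ z X j w).card :=
            Nat.mul_le_mul_left _ (Finset.sum_le_sum (fun j _ => hwsmiss j))
        _ = 20 * e * ∑ j, ∑ w, (missSet τ z X j w).card := by rw [← Finset.mul_sum]; ring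
        _ ≤ D * (Q * D * t) := hmiss
        _ ≤ n * D := by rw [mul_comm]; exact Nat.mul_le_mul_right _ hfit
    have hbadcard : 10 * e * badc.card ≤ 3 * n := by
      have h1 := Nat.mul_le_mul_left (10 * e) (le_trans (Finset.card_le_card hsub)
        (le_trans (Finset.card_union_le _ _) (Nat.add_le_add_right (Finset.card_union_le _ _) _)))
      have h2 := Nat.mul_le_mul_left (10 * e) hfarcard
      linarith
    have hsum : 10 * e * ∑ c, ndist A c (σ c) ≤ 4 * n ^ 2 := by
      have h1 : 20 * e * ∑ c, ndist A c (σ c) ≤ n * (2 * n) + badc.card * (20 * e * n) := by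
        rw [Finset.mul_sum]
        refine le_trans (Finset.sum_le_sum (fun c _ => hnear c)) ?_
        rw [Finset.sum_add_distrib, Finset.sum_const, ← Finset.sum_filter, Finset.sum_const,
          Finset.card_univ, Fintype.card_fin, smul_eq_mul, smul_eq_mul, Finset.filter_mem_eq_inter,
          Finset.univ_inter]
      have h2 := Nat.mul_le_mul_right n hbadcard
      linarith
    have hdiff := entryDiff_le A delᶜ φ hφid σ
    rw [compl_compl] at hdiff
    have h1 := Nat.mul_le_mul_left (10 * e) hdiff
    have h2 := Nat.mul_le_mul_right n hdel_card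
    linarith

end Vale.Agent.P037
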