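import Mathlib
import Vale.Agent.P037.Rounding

/-!
Parameters, and the double exponential removal bound for every pattern.
-/

open Finset

namespace Vale.Agent.P037

theorem fit {d c u B : ℕ} (hd : 1 ≤ d) (hc : 1 ≤ c) (hu : u ≤ B) (hB : 15 * d * c ≤ B) :
    c * (u * (12 * d * B + 2) + 1) ^ d ≤ B ^ (3 * d) := by
  have hB1 : 1 ≤ B := le_trans (by nlinarith) hB
  have h0 : 1 ≤ d * B := Nat.mul_pos hd hB1
  have h1 : u * (12 * d * B + 2) + 1 ≤ 15 * d * B * B := by
    have h := Nat.mul_le_mul_right (12 * d * B + 2) hu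
    nlinarith
  calc c * (u * (12 * d * B + 2) + 1) ^ d
      ≤ c ^ d * (15 * d * B * B) ^ d :=
        Nat.mul_le_mul (Nat.le_self_pow (by omega) c) (Nat.pow_le_pow_left h1 d)
    _ = (15 * d * c) ^ d * (B * B) ^ d := by rw [← mul_pow, ← mul_pow]; congr 1; ring
    _ ≤ B ^ d * (B * B) ^ d := Nat.mul_le_mul_right _ (Nat.pow_le_pow_left hB d)
    _ = B ^ (3 * d) := by ring

theorem sq_le_two_pow {d B S : ℕ} (hS : S ≤ B ^ (6 * d)) :
    4 * S ^ 2 ≤ 2 ^ (12 * d * B + 2) := by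
  calc 4 * S ^ 2 ≤ 4 * (B ^ (6 * d)) ^ 2 := Nat.mul_le_mul_left _ (Nat.pow_le_pow_left hS 2)
    _ ≤ 4 * ((2 ^ B) ^ (6 * d)) ^ 2 := by
        gcongr; exact Nat.lt_two_pow_self.le
    _ = 2 ^ (12 * d * B + 2) := by rw [← pow_mul, ← pow_mul, pow_add]; ring

/-- Size of the global net. -/
noncomputable def netSize (k e : ℕ) : ℕ := (300 * dimH k * e) ^ (3 * dimH k)

/-- Samples per window. -/
noncomputable def sampleSize (k e : ℕ) : ℕ := 80 * e * netSize k e

/-- The multiplier in the branching numbers. -/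
noncomputable def branchBase (k e : ℕ) : ℕ := 600 * dimH k * k ^ 3 * e * sampleSize k e ^ k

/-- Windows per interval. -/
noncomputable def branch (k e Q : ℕ) : ℕ := (branchBase k e * Q) ^ (3 * (dimH k * k))

/-- Number of levels. -/
noncomputable def numLevels (k e : ℕ) : ℕ := netSize k e * (80 * e) ^ 2

/-- The finest number of blocks. -/
noncomputable def finest (k e : ℕ) : ℕ := levelQ (branch k e) (numLevels k e)

/-- The loss factor. -/
noncomputable def lossFactor (k e : ℕ) : ℕ :=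
  (160 * e * k * finest k e * sampleSize k e) ^ (4 * (k + 2) ^ 2)

theorem branchBase_pos {k e : ℕ} (hk : 1 ≤ k) (he : 1 ≤ e) : 1 ≤ branchBase k e := by
  have := dimH_pos hk
  unfold branchBase sampleSize netSize
  exact Nat.one_le_iff_ne_zero.2 (by positivity)

/-- Elementary facts about the parameters. -/
theorem param_facts {k e : ℕ} (hk : 1 ≤ k) (he : 1 ≤ e) :
    1 ≤ finest k e ∧ 1 ≤ netSize k e ∧ 1 ≤ sampleSize k e ∧ netSize k e ≤ sampleSize k e ∧
      finest k e * sampleSize k e ≤ 160 * e * k * finest k e * sampleSize k e ∧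
      160 * e * k ≤ 160 * e * k * finest k e * sampleSize k e ∧
      (∀ Q, 1 ≤ Q → 1 ≤ branch k e Q) := by
  have hd := dimH_pos hk
  have hN : 1 ≤ netSize k e := Nat.one_le_iff_ne_zero.2 (by rw [netSize]; positivity)
  have hs : 1 ≤ sampleSize k e := Nat.one_le_iff_ne_zero.2 (by rw [sampleSize]; positivity)
  have hD : ∀ Q, 1 ≤ Q → 1 ≤ branch k e Q := fun Q hQ =>
    Nat.one_le_pow _ _ (Nat.mul_pos (branchBase_pos hk he) hQ)
  have hG : 1 ≤ finest k e := levelQ_pos _ hD _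
  refine ⟨hG, hN, hs, ?_, ?_, ?_, hD⟩
  · exact Nat.le_mul_of_pos_left _ (by omega)
  · rw [mul_assoc (160 * e * k)]; exact Nat.le_mul_of_pos_left _ (by positivity)
  · rw [mul_assoc (160 * e * k)]; exact Nat.le_mul_of_pos_right _ (Nat.mul_pos hG hs)

theorem few_small {k n e : ℕ} (hk : 1 ≤ k) (he : 1 ≤ e) {c : ℕ} (hpos : 1 ≤ c)
    (hfew : c * lossFactor k e < n ^ (2 * k)) :
    (∀ x, x ≤ 4 * (k + 2) ^ 2 →
      c * (160 * e * k * finest k e * sampleSize k e) ^ x < n ^ (2 * k)) ∧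
      (160 * e * k * finest k e * sampleSize k e) ^ (k + 2) < n := by
  obtain ⟨-, -, -, -, -, h160, -⟩ := param_facts hk he
  set T := 160 * e * k * finest k e * sampleSize k e
  have hek : 1 ≤ e * k := Nat.mul_pos he hk
  have hT1 : 1 ≤ T := le_trans (by linarith) h160
  have hsmall : ∀ x, x ≤ 4 * (k + 2) ^ 2 → c * T ^ x < n ^ (2 * k) := fun x hx =>
    lt_of_le_of_lt (Nat.mul_le_mul_left _ (Nat.pow_le_pow_right hT1 hx)) hfew
  refine ⟨hsmall, ?_⟩
  by_contra hc
  push Not at hc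
  have h1 : n ^ (2 * k) ≤ T ^ ((k + 2) * (2 * k)) :=
    le_trans (Nat.pow_le_pow_left hc _) (le_of_eq (pow_mul T (k + 2) (2 * k)).symm)
  have h2 := hsmall ((k + 2) * (2 * k)) (by nlinarith)
  have := Nat.le_mul_of_pos_left (T ^ ((k + 2) * (2 * k))) hpos
  omega

/-- The global typing of the columns. -/
theorem exists_typing {k n e : ℕ} (hk : 1 ≤ k) (he : 1 ≤ e) (H : Fin k → Fin k → Bool)
    (A : Fin n → Fin n → Bool) (hn : 0 < n)
    (hfew : ∀ x, x ≤ 4 * (k + 2) ^ 2 →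
      numCopies H A * (160 * e * k * finest k e * sampleSize k e) ^ x < n ^ (2 * k)) :
    ∃ (m0 : ℕ) (τ : Fin n → Fin (m0 + 1)), m0 + 1 = netSize k e ∧
      (∀ c c', τ c = τ c' → τ c ≠ Fin.last m0 → 20 * e * ndist A c c' ≤ 2 * n) ∧
      10 * e * (univ.filter (fun c => τ c = Fin.last m0)).card ≤ n := by
  classical
  have hd := dimH_pos hk
  set d := dimH k with hddef
  set N := netSize k e with hNdef
  set s := sampleSize k e with hsdef
  set G := finest k e with hGdef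
  obtain ⟨hG1, hN1, hs1, hNs, hTG, h160, hD1⟩ := param_facts hk he
  rw [← hNdef] at hN1 hNs
  rw [← hsdef] at hs1 hNs hTG h160
  rw [← hGdef] at hG1 hTG h160
  set T := 160 * e * k * G * s with hTdef
  have hek : 1 ≤ e * k := Nat.mul_pos he hk
  have hT1 : 1 ≤ T := le_trans (Nat.mul_pos hG1 hs1) hTG
  have h4T : 4 ≤ T := le_trans (by linarith) h160
  have hGT : G ≤ T := le_trans (Nat.le_mul_of_pos_right _ hs1) hTG
  have hsT : s ≤ T := le_trans (Nat.le_mul_of_pos_left _ hG1) hTG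
  have hsmall := hfew
  -- the global net
  set B0 := 300 * d * e with hB0
  set m0 := N - 1 with hm0
  have hm0N : m0 + 1 = N := by omega
  set ℓ0 := 12 * d * B0 + 2 with hℓ0
  have hNB : N = B0 ^ (3 * d) := rfl
  have hfit0 : 20 * e * (20 * e * ℓ0 + 1) ^ d ≤ N := by
    rw [hNB]
    refine fit hd (by omega) ?_ ?_
    · rw [hB0]; nlinarith
    · rw [hB0]; nlinarith
  obtain ⟨Z, hZ⟩ := exists_net hk H A (u := 20 * e) (ℓ := ℓ0) (m0 := m0) hn (by omega) (by
      rw [hm0N, hNB]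
      exact sq_le_two_pow (Nat.pow_le_pow_right (by rw [hB0]; exact Nat.one_le_iff_ne_zero.2 (by positivity)) (by omega)))
    (by
      rw [hm0N]
      have h1 : 20 * e * ℓ0 ≤ N := by
        refine le_trans ?_ hfit0
        calc 20 * e * ℓ0 ≤ (20 * e * ℓ0 + 1) ^ d :=
              le_trans (Nat.le_succ _) (Nat.le_self_pow (by omega) _)
          _ ≤ _ := Nat.le_mul_of_pos_left _ (by omega)
      calc 4 * N ^ (k + 1) * (20 * e * ℓ0) ^ k * numCopies H A
          ≤ T * T ^ (k + 1) * T ^ k * numCopies H A := by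
            gcongr
            · exact hNs.trans hsT
            · exact h1.trans (hNs.trans hsT)
        _ = numCopies H A * T ^ (2 * k + 2) := by ring
        _ ≤ _ := (hsmall _ (by nlinarith)).le)
  -- typing
  set z : Fin (m0 + 1) := Fin.last m0
  set τ : Fin n → Fin (m0 + 1) := fun c =>
    if h : ∃ i, 20 * e * ndist A c (Z i) < n then (h.choose).castSucc else z with hτdef
  have hτz : ∀ c, τ c = z ↔ ∀ i, n ≤ 20 * e * ndist A c (Z i) := by
    intro c
    simp only [hτdef]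
    split_ifs with h
    · constructor
      · intro h'; exact absurd h' (Fin.castSucc_lt_last _).ne
      · intro h'; obtain ⟨i, hi⟩ := h; have := h' i; omega
    · push Not at h
      exact ⟨fun _ => h, fun _ => rfl⟩
  have hτ : ∀ c c', τ c = τ c' → τ c ≠ z → 20 * e * ndist A c c' ≤ 2 * n := by
    intro c c' heq hne
    have hc : ∃ i, 20 * e * ndist A c (Z i) < n := by
      by_contra h; push Not at h; exact hne ((hτz c).2 h)
    have hc' : ∃ i, 20 * e * ndist A c' (Z i) < n := by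
      by_contra h; push Not at h; exact hne (heq.trans ((hτz c').2 h))
    simp only [hτdef, dif_pos hc, dif_pos hc'] at heq
    have e1 := Fin.castSucc_injective _ heq
    have h1 := hc.choose_spec
    have h2 := hc'.choose_spec
    rw [← e1, ndist_comm] at h2
    have := Nat.mul_le_mul_left (20 * e) (ndist_triangle A c (Z hc.choose) c')
    linarith
  have hU : 10 * e * (univ.filter (fun c => τ c = z)).card ≤ n := by
    simp only [hτz]
    rw [hm0N] at hZ
    refine Nat.le_of_mul_le_mul_left ?_ hN1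
    calc N * (10 * e * (univ.filter (fun c => ∀ i, n ≤ 20 * e * ndist A c (Z i))).card)
        = 10 * e * (N * (univ.filter (fun c => ∀ i, n ≤ 20 * e * ndist A c (Z i))).card) := by ring
      _ ≤ 10 * e * (((20 * e * ℓ0 + 1) ^ d + 1) * n) := Nat.mul_le_mul_left _ hZ
      _ ≤ (20 * e * (20 * e * ℓ0 + 1) ^ d) * n := by
          have : 1 ≤ (20 * e * ℓ0 + 1) ^ d := Nat.one_le_pow _ _ (by omega)
          rw [← mul_assoc]
          refine Nat.mul_le_mul_right _ ?_
          nlinarith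
      _ ≤ N * n := Nat.mul_le_mul_right _ hfit0
  exact ⟨m0, τ, hm0N, hτ, hU⟩

/-- Arithmetic of the branching numbers. -/
theorem branch_arith {d k e Q s B : ℕ} (hd : 1 ≤ d) (hk : 1 ≤ k) (he : 1 ≤ e) (hQ : 1 ≤ Q)
    (hs : 1 ≤ s) (hB : B = 600 * (d * k ^ 2) * (e * Q * s ^ k * k)) :
    2 * k * (40 * e * Q * s ^ k * k * (12 * (d * k) * B + 2) + 1) ^ (d * k) ≤ B ^ (3 * (d * k)) ∧
      Q * s ≤ B ^ (3 * (d * k)) := by
  have hdd1 : 1 ≤ d * k := Nat.mul_pos hd hk
  have hX1 : 1 ≤ e * Q * s ^ k * k := Nat.one_le_iff_ne_zero.2 (by positivity)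
  have hY1 : 1 ≤ d * k ^ 2 := Nat.mul_pos hd (Nat.pow_pos hk)
  refine ⟨fit hdd1 (by omega) ?_ ?_, ?_⟩
  · rw [hB, show 40 * e * Q * s ^ k * k = 40 * (e * Q * s ^ k * k) by ring]
    exact Nat.mul_le_mul_right _ (by omega)
  · rw [hB, show 15 * (d * k) * (2 * k) = 30 * (d * k ^ 2) * 1 by ring]
    exact Nat.mul_le_mul (Nat.mul_le_mul_right _ (by norm_num)) hX1
  · have h1 : Q * s ≤ e * Q * s ^ k * k := by
      calc Q * s = 1 * Q * s * 1 := by ring
        _ ≤ e * Q * s ^ k * k := by gcongr; exact Nat.le_self_pow (by omega) s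
    have h2 : e * Q * s ^ k * k ≤ B := by rw [hB]; exact Nat.le_mul_of_pos_left _ (by omega)
    exact h1.trans (h2.trans (Nat.le_self_pow (by omega) B))

/-- From few copies to the hypotheses of the rounding. -/
theorem sample_cond {n k e G T S t m c TC : ℕ} (hn : 0 < n) (hk : 1 ≤ k) (he : 1 ≤ e)
    (hS1 : 1 ≤ S) (hT : 160 * e * k ≤ T) (h2G : 2 * G ≤ T) (hS : S ≤ T) (hm : m ≤ T)
    (hn2 : n ≤ 2 * G * t) (hTC : TC * t ^ k ≤ 2 * (S ^ k * c))
    (hsmall : ∀ x, x ≤ 4 * (k + 2) ^ 2 → c * T ^ x < n ^ (2 * k)) (hbig : T ^ (k + 2) < n) :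
    4 * TC * m ^ k ≤ n ^ k ∧ TC < (n / (20 * e * k * S ^ k)) ^ k := by
  have hek : 1 ≤ e * k := Nat.mul_pos he hk
  have h8T : 8 ≤ T := le_trans (by linarith) hT
  have hT1 : 1 ≤ T := by omega
  have hTCn : TC * n ^ k ≤ 2 * T ^ (2 * k) * c := by
    calc TC * n ^ k ≤ TC * (2 * G * t) ^ k := Nat.mul_le_mul_left _ (Nat.pow_le_pow_left hn2 _)
      _ = (2 * G) ^ k * (TC * t ^ k) := by ring
      _ ≤ T ^ k * (2 * (T ^ k * c)) := by
          refine Nat.mul_le_mul (Nat.pow_le_pow_left h2G _) (hTC.trans ?_)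
          gcongr
      _ = _ := by ring
  constructor
  · refine Nat.le_of_mul_le_mul_right ?_ (pow_pos hn k)
    calc 4 * TC * m ^ k * n ^ k = 4 * m ^ k * (TC * n ^ k) := by ring
      _ ≤ 4 * T ^ k * (2 * T ^ (2 * k) * c) := by gcongr
      _ = 8 * (c * T ^ (3 * k)) := by ring
      _ ≤ T * (c * T ^ (3 * k)) := Nat.mul_le_mul_right _ h8T
      _ = c * T ^ (3 * k + 1) := by ring
      _ ≤ n ^ (2 * k) := (hsmall _ (by nlinarith)).le
      _ = n ^ k * n ^ k := by rw [← pow_add, two_mul]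
  · set U := 20 * e * k * S ^ k with hUdef
    set mr := n / U with hmrdef
    have hU1 : 1 ≤ U := Nat.one_le_iff_ne_zero.2 (by positivity)
    have hUT : 2 * U ≤ T ^ (k + 1) := by
      rw [hUdef, pow_succ']
      calc 2 * (20 * e * k * S ^ k) = 40 * e * k * S ^ k := by ring
        _ ≤ T * T ^ k := Nat.mul_le_mul (by linarith) (Nat.pow_le_pow_left hS _)
    have hUn : n ≤ 2 * U * mr := by
      have h1 := Nat.div_add_mod n U
      have h2 := Nat.mod_lt n (show U > 0 by omega)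
      have h3 : U ≤ n := by
        have := Nat.pow_le_pow_right hT1 (show k + 1 ≤ k + 2 by omega)
        omega
      have h5 := Nat.mul_le_mul_left U (Nat.div_pos h3 hU1 : 1 ≤ mr)
      rw [← hmrdef] at h1
      rw [← hmrdef, Nat.succ_eq_add_one, zero_add, mul_one] at h5
      linarith
    refine Nat.lt_of_mul_lt_mul_right (a := n ^ k * (2 * U) ^ k) ?_
    calc TC * (n ^ k * (2 * U) ^ k) = (TC * n ^ k) * (2 * U) ^ k := by ring
      _ ≤ 2 * T ^ (2 * k) * c * (T ^ (k + 1)) ^ k :=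
          Nat.mul_le_mul hTCn (Nat.pow_le_pow_left hUT _)
      _ = 2 * (c * T ^ (2 * k + (k + 1) * k)) := by ring
      _ ≤ T * (c * T ^ (2 * k + (k + 1) * k)) := Nat.mul_le_mul_right _ (by omega)
      _ = c * T ^ (2 * k + 1 + (k + 1) * k) := by ring
      _ < n ^ (2 * k) := hsmall _ (by nlinarith)
      _ = n ^ k * n ^ k := by rw [← pow_add, two_mul]
      _ ≤ n ^ k * (2 * U * mr) ^ k := Nat.mul_le_mul_left _ (Nat.pow_le_pow_left hUn _)
      _ = mr ^ k * (n ^ k * (2 * U) ^ k) := by ring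

theorem branchBase_mul (k e Q : ℕ) : branchBase k e * Q =
    600 * (dimH k * k ^ 2) * (e * Q * sampleSize k e ^ k * k) := by
  rw [branchBase]; ring

theorem numLevels_eq (k e m0 : ℕ) (h : m0 + 1 = netSize k e) :
    (m0 + 1) * (80 * e) ^ 2 = numLevels k e := by
  rw [h, numLevels]

theorem sampleSize_eq (k e m0 : ℕ) (h : m0 + 1 = netSize k e) :
    sampleSize k e = 80 * e * (m0 + 1) := by
  rw [h, sampleSize]

/-- Level data. -/
theorem exists_good_level {k n e : ℕ} (hk : 1 ≤ k) (he : 1 ≤ e) {m0 : ℕ}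
    (σ : ℕ → Fin (m0 + 1)) (hm0N : m0 + 1 = netSize k e) (hGn : finest k e < n) :
    ∃ Q D t ℓ u : ℕ, 1 ≤ Q ∧ 1 ≤ D ∧ 1 ≤ t ∧ Q * D * t ≤ n ∧ n - Q * D * t ≤ finest k e ∧
      Q * D ≤ finest k e ∧ n ≤ 2 * finest k e * t ∧ u = 40 * e * Q * sampleSize k e ^ k * k ∧
      4 * (Q * D * sampleSize k e) ^ 2 ≤ 2 ^ ℓ ∧
      2 * (k * ((u * ℓ + 1) ^ dimH k) ^ k) ≤ D ∧ u * ℓ ≤ D ∧
      80 * e * drift σ Q D t ≤ D * (Q * D * t) := by
  obtain ⟨hG1, -, hs1, -, -, -, hD1⟩ := param_facts hk he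
  have hd := dimH_pos hk
  have ht01 : 1 ≤ n / finest k e := Nat.div_pos hGn.le hG1
  obtain ⟨l, hl, t, ht, hQDt, hdrift⟩ := exists_level σ (branch k e) hD1
    (show 1 ≤ m0 + 1 by omega) (show 1 ≤ 80 * e by omega) (n / finest k e)
  rw [numLevels_eq k e m0 hm0N] at hl hQDt hdrift
  rw [← finest] at hQDt hdrift
  have hQ1 : 1 ≤ levelQ (branch k e) l := levelQ_pos _ hD1 _
  have hQDG : levelQ (branch k e) l * branch k e (levelQ (branch k e) l) ≤ finest k e := by
    have h := levelQ_dvd (branch k e) (show l + 1 ≤ numLevels k e from hl)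
    rw [levelQ, ← finest] at h
    exact Nat.le_of_dvd hG1 h
  generalize levelQ (branch k e) l = Q at hQ1 hQDG hQDt hdrift
  obtain ⟨hb1, hb2⟩ := branch_arith hd hk he hQ1 hs1 (branchBase_mul k e Q)
  rw [← branch] at hb1 hb2
  have hD1' : 1 ≤ branch k e Q := hD1 Q hQ1
  refine ⟨Q, branch k e Q, t, 12 * (dimH k * k) * (branchBase k e * Q) + 2,
    40 * e * Q * sampleSize k e ^ k * k, hQ1, hD1', ht01.trans ht, ?_, ?_, hQDG, ?_, rfl, ?_, ?_,
    ?_, ?_⟩
  · rw [hQDt]; exact Nat.mul_div_le n _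
  · rw [hQDt]
    have h1 := Nat.div_add_mod n (finest k e)
    have h2 := Nat.mod_lt n (show finest k e > 0 by omega)
    omega
  · have h1 := Nat.div_add_mod n (finest k e)
    have h2 := Nat.mod_lt n (show finest k e > 0 by omega)
    have h3 := Nat.mul_le_mul_left (finest k e) ht
    have h4 := Nat.mul_le_mul_left (finest k e) (ht01.trans ht)
    linarith
  · refine sq_le_two_pow ?_
    calc Q * branch k e Q * sampleSize k e = (Q * sampleSize k e) * branch k e Q := by ring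
      _ ≤ branch k e Q * branch k e Q := Nat.mul_le_mul_right _ hb2
      _ = _ := by rw [branch, ← pow_add]; congr 1; ring
  · rw [← pow_mul, ← mul_assoc]
    exact hb1
  · refine le_trans ?_ hb1
    refine le_trans ?_ (Nat.le_mul_of_pos_left _ (show 0 < 2 * k by omega))
    exact le_trans (Nat.le_succ _) (Nat.le_self_pow (by positivity) _)
  · rw [hQDt]; exact hdrift

/-- Choice of the level and of the sample. -/
theorem exists_free_level {k n e : ℕ} (hk : 1 ≤ k) (he : 1 ≤ e) (H : Fin k → Fin k → Bool)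
    (A : Fin n → Fin n → Bool) (hn : 0 < n) {m0 : ℕ} (τ : Fin n → Fin (m0 + 1))
    (hm0N : m0 + 1 = netSize k e)
    (hτ : ∀ c c', τ c = τ c' → τ c ≠ Fin.last m0 → 20 * e * ndist A c c' ≤ 2 * n)
    (hU : 10 * e * (univ.filter (fun c => τ c = Fin.last m0)).card ≤ n)
    (hfew : ∀ x, x ≤ 4 * (k + 2) ^ 2 →
      numCopies H A * (160 * e * k * finest k e * sampleSize k e) ^ x < n ^ (2 * k))
    (hnbig : (160 * e * k * finest k e * sampleSize k e) ^ (k + 2) < n) :
    ∃ B, IsFree H B ∧ 2 * e * entryDiff A B ≤ n ^ 2 := by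
  obtain ⟨hG1, -, hs1, -, hTG, h160, -⟩ := param_facts hk he
  have hseq := sampleSize_eq k e m0 hm0N
  have hgood : finest k e < n → ∃ Q D t ℓ u : ℕ, 1 ≤ Q ∧ 1 ≤ D ∧ 1 ≤ t ∧ Q * D * t ≤ n ∧
      n - Q * D * t ≤ finest k e ∧
      Q * D ≤ finest k e ∧ n ≤ 2 * finest k e * t ∧ u = 40 * e * Q * sampleSize k e ^ k * k ∧
      4 * (Q * D * sampleSize k e) ^ 2 ≤ 2 ^ ℓ ∧
      2 * (k * ((u * ℓ + 1) ^ dimH k) ^ k) ≤ D ∧ u * ℓ ≤ D ∧
      80 * e * drift (extType τ (Fin.last m0)) Q D t ≤ D * (Q * D * t) :=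
    exists_good_level hk he _ hm0N
  generalize finest k e = G at *
  generalize sampleSize k e = s at *
  have h2G : 2 * G ≤ 160 * e * k * G * s := by
    have : 1 ≤ e * k * s := Nat.mul_pos (Nat.mul_pos he hk) hs1
    nlinarith
  generalize hT : 160 * e * k * G * s = T at *
  have hek : 1 ≤ e * k := Nat.mul_pos he hk
  have hT1 : 1 ≤ T := le_trans (by linarith) h160
  have hGT : G ≤ T := le_trans (Nat.le_mul_of_pos_right _ hs1) hTG
  have hpow := Nat.le_self_pow (show k + 2 ≠ 0 by omega) T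
  obtain ⟨Q, D, t, ℓ, u, hQ1, hD1, ht1, hfit, hrem0, hQDG, hn2, hu, hℓ, hbad, hmD, hdrift⟩ :=
    hgood (by omega)
  obtain ⟨X, hX1, hX2⟩ := exists_sample H A τ (Fin.last m0) hfit ht1 hs1 (e := e) hseq hdrift
  have hS : Q * D * s ≤ T := le_trans (Nat.mul_le_mul_right _ hQDG) hTG
  have hm : u * ℓ ≤ T := hmD.trans ((Nat.le_mul_of_pos_left D hQ1).trans (hQDG.trans hGT))
  obtain ⟨hpack, hrare⟩ := sample_cond (G := G) (T := T) (S := Q * D * s) (t := t) (m := u * ℓ)
    hn hk he (Nat.mul_pos (Nat.mul_pos hQ1 hD1) hs1) h160 h2G hS hm hn2 hX1 hfew hnbig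
  have hrem : 10 * e * (n - Q * D * t) ≤ n := by
    have h4 : 10 * e * G ≤ T * T := Nat.mul_le_mul (le_trans (by nlinarith) h160) hGT
    have h5 : T * T ≤ T ^ (k + 2) := by
      rw [← pow_two]; exact Nat.pow_le_pow_right hT1 (by omega)
    have := Nat.mul_le_mul_left (10 * e) hrem0
    omega
  exact exists_free_close hk H A τ (Fin.last m0) hn he hQ1 hD1 ht1 hfit hrem hτ hU hs1 hu
    hℓ hbad X hpack hrare (Nat.mul_div_le n _) hX2

/-- A matrix with few copies is close to a free one. -/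
theorem exists_free_of_few {k n e : ℕ} (hk : 1 ≤ k) (he : 1 ≤ e) (H : Fin k → Fin k → Bool)
    (A : Fin n → Fin n → Bool) (hpos : 1 ≤ numCopies H A)
    (hfew : numCopies H A * lossFactor k e < n ^ (2 * k)) :
    ∃ B, IsFree H B ∧ 2 * e * entryDiff A B ≤ n ^ 2 := by
  obtain ⟨hsmall0, hnbig0⟩ := few_small hk he hpos hfew
  have hn : 0 < n := by omega
  obtain ⟨m0, τ, hm0N0, hτ, hU⟩ := exists_typing hk he H A hn hsmall0
  exact exists_free_level hk he H A hn τ hm0N0 hτ hU hsmall0 hnbig0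

theorem mul_levelQ_le (k e : ℕ) (l : ℕ) :
    branchBase k e * levelQ (branch k e) l ≤
      branchBase k e ^ ((3 * (dimH k * k) + 1) ^ l) := by
  induction l with
  | zero => simp [levelQ]
  | succ l ih =>
    calc branchBase k e * levelQ (branch k e) (l + 1)
        = (branchBase k e * levelQ (branch k e) l) ^ (3 * (dimH k * k) + 1) := by
          show branchBase k e * (levelQ (branch k e) l * branch k e (levelQ (branch k e) l)) = _
          rw [branch, pow_succ]
          ring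
      _ ≤ (branchBase k e ^ ((3 * (dimH k * k) + 1) ^ l)) ^ (3 * (dimH k * k) + 1) :=
          Nat.pow_le_pow_left ih _
      _ = _ := by rw [← pow_mul, ← pow_succ]

theorem lossFactor_le {k e : ℕ} (hk : 1 ≤ k) (he : 1 ≤ e) :
    lossFactor k e ≤ branchBase k e ^
      (2 * (4 * (k + 2) ^ 2) * (3 * (dimH k * k) + 1) ^ numLevels k e) := by
  have hK1 := branchBase_pos hk he
  have hd := dimH_pos hk
  set a := 3 * (dimH k * k) + 1
  have h1 : 160 * e * k * sampleSize k e ≤ branchBase k e := by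
    have hs : sampleSize k e ≤ sampleSize k e ^ k := Nat.le_self_pow (by omega) _
    have hk3 : k ≤ k ^ 3 := Nat.le_self_pow (by norm_num) _
    calc 160 * e * k * sampleSize k e = 160 * 1 * k * e * sampleSize k e := by ring
      _ ≤ 600 * dimH k * k ^ 3 * e * sampleSize k e ^ k := by gcongr; norm_num
  have h2 : 160 * e * k * finest k e * sampleSize k e ≤
      branchBase k e ^ (2 * a ^ numLevels k e) := by
    calc 160 * e * k * finest k e * sampleSize k e
        = (160 * e * k * sampleSize k e) * finest k e := by ring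
      _ ≤ branchBase k e * finest k e := Nat.mul_le_mul_right _ h1
      _ ≤ branchBase k e ^ (a ^ numLevels k e) := mul_levelQ_le k e _
      _ ≤ _ := Nat.pow_le_pow_right hK1 (Nat.le_mul_of_pos_left _ (by norm_num))
  refine le_trans (Nat.pow_le_pow_left h2 _) (le_of_eq ?_)
  rw [← pow_mul]
  congr 1
  ring

theorem lossFactor_exp {k e : ℕ} (hk : 1 ≤ k) (he : 1 ≤ e) :
    (lossFactor k e : ℝ) ≤ Real.exp (Real.exp ((2 * (4 * (k + 2) ^ 2) +
      (3 * (dimH k * k) + 1) * numLevels k e + branchBase k e : ℕ) : ℝ)) := by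
  have h := lossFactor_le hk he
  set E := 2 * (4 * (k + 2) ^ 2)
  set a := 3 * (dimH k * k) + 1
  set L := numLevels k e
  set K := branchBase k e
  have hle : ∀ x : ℝ, x ≤ Real.exp x := fun x => by linarith [Real.add_one_le_exp x]
  calc (lossFactor k e : ℝ) ≤ ((K ^ (E * a ^ L) : ℕ) : ℝ) := by exact_mod_cast h
    _ = (K : ℝ) ^ (E * a ^ L) := by push_cast; rfl
    _ ≤ Real.exp (K : ℝ) ^ (E * a ^ L) := pow_le_pow_left₀ (Nat.cast_nonneg _) (hle _) _
    _ = Real.exp (((E * a ^ L : ℕ) : ℝ) * K) := by rw [← Real.exp_nat_mul]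
    _ ≤ _ := by
        rw [Real.exp_le_exp]
        push_cast
        rw [Real.exp_add, Real.exp_add]
        have h1 : (a : ℝ) ^ L ≤ Real.exp ((a : ℝ) * L) := by
          rw [mul_comm, Real.exp_nat_mul]
          exact pow_le_pow_left₀ (Nat.cast_nonneg _) (hle _) _
        have h2 := hle (E : ℝ)
        have h3 := hle (K : ℝ)
        gcongr

theorem exponent_le {k e : ℕ} (hk : 1 ≤ k) (he : 1 ≤ e) :
    ∀ c1 : ℕ, c1 = (300 * dimH k) ^ (3 * dimH k) →
    2 * (4 * (k + 2) ^ 2) + (3 * (dimH k * k) + 1) * numLevels k e + branchBase k e ≤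
      (2 * (4 * (k + 2) ^ 2) + (3 * (dimH k * k) + 1) * (6400 * c1) +
        600 * dimH k * k ^ 3 * (80 * c1) ^ k) * e ^ ((3 * dimH k + 2) * (k + 1)) := by
  intro c1 hc1
  set d := dimH k
  have hN : netSize k e = c1 * e ^ (3 * d) := by rw [netSize, hc1, ← mul_pow]
  have hs : sampleSize k e = 80 * c1 * e ^ (3 * d + 1) := by rw [sampleSize, hN]; ring
  have hL : numLevels k e = 6400 * c1 * e ^ (3 * d + 2) := by rw [numLevels, hN]; ring
  have hK : branchBase k e = 600 * d * k ^ 3 * (80 * c1) ^ k * e ^ ((3 * d + 1) * k + 1) := by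
    rw [branchBase, hs, mul_pow, ← pow_mul, pow_succ]; ring
  rw [hL, hK]
  set P := (3 * d + 2) * (k + 1) with hP
  have p0 : 1 ≤ e ^ P := Nat.one_le_pow _ _ he
  have p1 : e ^ (3 * d + 2) ≤ e ^ P := Nat.pow_le_pow_right he (Nat.le_mul_of_pos_right _ (by omega))
  have p2 : e ^ ((3 * d + 1) * k + 1) ≤ e ^ P := Nat.pow_le_pow_right he (by rw [hP]; nlinarith)
  calc 2 * (4 * (k + 2) ^ 2) + (3 * (d * k) + 1) * (6400 * c1 * e ^ (3 * d + 2)) +
        600 * d * k ^ 3 * (80 * c1) ^ k * e ^ ((3 * d + 1) * k + 1)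
      ≤ 2 * (4 * (k + 2) ^ 2) * e ^ P + (3 * (d * k) + 1) * (6400 * c1 * e ^ P) +
        600 * d * k ^ 3 * (80 * c1) ^ k * e ^ P :=
        Nat.add_le_add (Nat.add_le_add (Nat.le_mul_of_pos_right _ p0)
          (Nat.mul_le_mul_left _ (Nat.mul_le_mul_left _ p1))) (Nat.mul_le_mul_left _ p2)
    _ = _ := by ring

/-- The removal bound for every pattern. -/
theorem doubleExpRemoval : DoubleExpRemoval := by
  intro k hk H
  set c1 := (300 * dimH k) ^ (3 * dimH k) with hc1
  set C0 := 2 * (4 * (k + 2) ^ 2) + (3 * (dimH k * k) + 1) * (6400 * c1) +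
    600 * dimH k * k ^ 3 * (80 * c1) ^ k with hC0
  set P := (3 * dimH k + 2) * (k + 1) with hP
  set C : ℝ := max ((C0 : ℝ) * 2 ^ P) (P : ℝ) + 1 with hC
  have hCpos : 0 < C := by
    have : (0 : ℝ) ≤ max ((C0 : ℝ) * 2 ^ P) (P : ℝ) := le_max_of_le_right (Nat.cast_nonneg _)
    linarith
  refine ⟨C, hCpos, fun n hn ε hε0 hε1 A hfar => ?_⟩
  set e := ⌈1 / ε⌉₊ with he
  have he1 : 1 ≤ e := Nat.one_le_iff_ne_zero.2 (by
    rw [he, Ne, Nat.ceil_eq_zero, not_le]; positivity)
  have hee : 1 / ε ≤ (e : ℝ) := Nat.le_ceil _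
  have hele : (e : ℝ) ≤ 2 / ε := by
    have h1 := Nat.ceil_lt_add_one (show (0 : ℝ) ≤ 1 / ε by positivity)
    have h2 : 1 ≤ 1 / ε := by rw [le_div_iff₀ hε0]; linarith
    rw [he]
    have : 2 / ε = 1 / ε + 1 / ε := by ring
    linarith
  have hn2 : (0 : ℝ) < (n : ℝ) ^ 2 := by positivity
  have hcop : 1 ≤ numCopies H A := by
    by_contra hc
    push Not at hc
    have hfree : IsFree H A := by
      intro p hp
      classical
      have : (univ.filter (IsCopy H A)) = ∅ := Finset.card_eq_zero.1 (by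
        unfold numCopies at hc; omega)
      exact Finset.eq_empty_iff_forall_notMem.1 this p (Finset.mem_filter.2 ⟨mem_univ _, hp⟩)
    have := hfar A hfree
    have h0 : entryDiff A A = 0 := by simp [entryDiff]
    rw [h0, Nat.cast_zero] at this
    nlinarith [mul_pos hε0 hn2]
  have hmain : n ^ (2 * k) ≤ numCopies H A * lossFactor k e := by
    by_contra hc
    push Not at hc
    obtain ⟨B, hBfree, hBdiff⟩ := exists_free_of_few hk he1 H A hcop hc
    have h1 := hfar B hBfree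
    have h2 : (2 : ℝ) * e * entryDiff A B ≤ (n : ℝ) ^ 2 := by exact_mod_cast hBdiff
    have h3 : 1 ≤ ε * e := by rw [div_le_iff₀ hε0] at hee; linarith
    have h4 := mul_le_mul_of_nonneg_left h1 (show (0 : ℝ) ≤ 2 * e by positivity)
    have h5 := mul_le_mul_of_nonneg_right h3 hn2.le
    linarith
  have hW := lossFactor_exp hk he1
  have hexp := exponent_le hk he1 c1 hc1
  rw [← hC0, ← hP] at hexp
  have hX : ((2 * (4 * (k + 2) ^ 2) + (3 * (dimH k * k) + 1) * numLevels k e +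
      branchBase k e : ℕ) : ℝ) ≤ C * ε ^ (-C) := by
    refine le_trans (Nat.cast_le.2 hexp) ?_
    push_cast
    have h1 : (e : ℝ) ^ P ≤ 2 ^ P * ε ^ (-(P : ℝ)) := by
      refine le_trans (pow_le_pow_left₀ (Nat.cast_nonneg _) hele P) (le_of_eq ?_)
      rw [div_pow, Real.rpow_neg hε0.le, Real.rpow_natCast]
      rfl
    have h2 : ε ^ (-(P : ℝ)) ≤ ε ^ (-C) := by
      refine Real.rpow_le_rpow_of_exponent_ge hε0 hε1.le ?_
      have := le_max_right ((C0 : ℝ) * 2 ^ P) (P : ℝ)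
      linarith
    calc (C0 : ℝ) * (e : ℝ) ^ P ≤ (C0 : ℝ) * (2 ^ P * ε ^ (-(P : ℝ))) :=
          mul_le_mul_of_nonneg_left h1 (Nat.cast_nonneg _)
      _ = (C0 : ℝ) * 2 ^ P * ε ^ (-(P : ℝ)) := by ring
      _ ≤ C * ε ^ (-C) := by
          refine mul_le_mul ?_ h2 (Real.rpow_nonneg hε0.le _) hCpos.le
          have := le_max_left ((C0 : ℝ) * 2 ^ P) (P : ℝ)
          linarith
  have hW2 : (lossFactor k e : ℝ) ≤ Real.exp (Real.exp (C * ε ^ (-C))) :=
    hW.trans (Real.exp_le_exp.2 (Real.exp_le_exp.2 hX))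
  have hmainR : (n : ℝ) ^ (2 * k) ≤ (numCopies H A : ℝ) * (lossFactor k e : ℝ) := by
    exact_mod_cast hmain
  rw [Real.exp_neg, ← div_eq_inv_mul, div_le_iff₀ (Real.exp_pos _)]
  exact hmainR.trans (mul_le_mul_of_nonneg_left hW2 (Nat.cast_nonneg _))

end Vale.Agent.P037
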